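import Vale.Agent.P231.EN.CS
import Vale.Agent.P231.EN.Eqv
import Vale.Agent.P231.WF.Deg

/-! P231, block E3: the connection form `⟨J x, dx⟩ / ‖x‖²` of an orthogonal circle action. -/

set_option linter.unusedSectionVars false
set_option linter.unusedVariables false

open Set Module Filter Topology
open scoped ContDiff

namespace Vale.Agent.P231.WE

open Vale.Agent.P231.Fm Vale.Agent.P231.EN

variable {V : Type*} [NormedAddCommGroup V] [InnerProductSpace ℝ V] [FiniteDimensional ℝ V]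
  {J : V → V}

/-- a circle action by great circles: `x` goes to `cos t x + sin t J x` -/
structure RJ (J : V → V) : Prop where
  smooth : ∀ x, x ≠ 0 → ContDiffAt ℝ ∞ J x
  hom : ∀ t : ℝ, 0 < t → ∀ v, J (t • v) = t • J v
  rot : ∀ v, ∀ c s : ℝ, c ^ 2 + s ^ 2 = 1 → J (c • v + s • J v) = -(s • v) + c • J v
  norm : ∀ v, ‖J v‖ = ‖v‖
  orth : ∀ v, inner ℝ (J v) v = (0 : ℝ)

/-- the covector `⟨J x, ·⟩ / ‖x‖²` -/
noncomputable def cov (J : V → V) (x : V) : V →L[ℝ] ℝ := (‖x‖ ^ 2)⁻¹ • innerSL ℝ (J x)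

/-- the connection form -/
noncomputable def psi (J : V → V) (x : V) : Lam V := dx (cov J x)

theorem cov_apply (x z : V) : cov J x z = (‖x‖ ^ 2)⁻¹ * inner ℝ (J x) z := rfl

theorem RJ.of_gc (h : GC J) (hn : ∀ v, ‖J v‖ = ‖v‖) (ho : ∀ v, inner ℝ (J v) v = (0 : ℝ)) :
    RJ J where
  smooth x hx := h.smooth.contDiffAt (isOpen_ne.mem_nhds hx)
  hom := h.hom
  rot := h.rot
  norm := hn
  orth := ho

namespace RJ

variable (h : RJ J)
include h

theorem gc : GC J where
  smooth := fun x hx => (h.smooth x hx).contDiffWithinAt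
  hom := h.hom
  rot := h.rot

theorem hasFDerivAt {x : V} (hx : x ≠ 0) : HasFDerivAt J (fderiv ℝ J x) x :=
  ((h.smooth x hx).differentiableAt (by simp)).hasFDerivAt

theorem cov_contDiffAt {x : V} (hx : x ≠ 0) : ContDiffAt ℝ ∞ (cov J) x := by
  have h1 : ContDiffAt ℝ ∞ (fun y : V => (‖y‖ ^ 2)⁻¹) x :=
    (contDiff_norm_sq ℝ).contDiffAt.inv (by positivity)
  exact h1.smul ((innerSL ℝ).contDiff.contDiffAt.comp x (h.smooth x hx))

theorem deriv_norm {x : V} (hx : x ≠ 0) (w : V) :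
    inner ℝ (J x) (fderiv ℝ J x w) = (inner ℝ x w : ℝ) := by
  have h1 := (h.hasFDerivAt hx).norm_sq
  have h2 : (fun y => ‖J y‖ ^ 2) = fun y => ‖y‖ ^ 2 := by
    funext y
    rw [h.norm]
  rw [h2] at h1
  have h3 := h1.unique (hasStrictFDerivAt_norm_sq x).hasFDerivAt
  have h4 := DFunLike.congr_fun h3 w
  simp at h4
  linarith only [h4]

theorem deriv_orth {x : V} (hx : x ≠ 0) (w : V) :
    inner ℝ (fderiv ℝ J x w) x = (-inner ℝ (J x) w : ℝ) := by
  have h1 := (h.hasFDerivAt hx).inner ℝ (hasFDerivAt_id x)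
  have h2 : (fun y => inner ℝ (J y) (id y)) = fun _ => (0 : ℝ) := by
    funext y
    exact h.orth y
  rw [h2] at h1
  have h3 := h1.unique (hasFDerivAt_const (0 : ℝ) x)
  have h4 := DFunLike.congr_fun h3 w
  simp at h4
  linarith only [h4]

theorem deriv_J {x : V} (hx : x ≠ 0) : fderiv ℝ J x (J x) = -x := by
  have h1 : HasDerivAt (fun t : ℝ => Real.cos t • x + Real.sin t • J x) (J x) 0 := by
    have h2 := ((Real.hasDerivAt_cos 0).smul_const x).fun_add
      ((Real.hasDerivAt_sin 0).smul_const (J x))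
    simpa using h2
  have h3 : HasFDerivAt J (fderiv ℝ J x) (Real.cos 0 • x + Real.sin 0 • J x) := by
    simpa using h.hasFDerivAt hx
  have h4 := h3.comp_hasDerivAt (0 : ℝ) h1
  have h5 : (J ∘ fun t : ℝ => Real.cos t • x + Real.sin t • J x) =
      fun t : ℝ => -(Real.sin t • x) + Real.cos t • J x := by
    funext t
    exact h.rot x _ _ (Real.cos_sq_add_sin_sq t)
  rw [h5] at h4
  have h6 : HasDerivAt (fun t : ℝ => -(Real.sin t • x) + Real.cos t • J x) (-x) 0 := by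
    have h7 := (((Real.hasDerivAt_sin 0).smul_const x).fun_neg).fun_add
      ((Real.hasDerivAt_cos 0).smul_const (J x))
    simpa using h7
  exact h4.unique h6

/-- derivative of the covector field -/
theorem cov_deriv {x : V} (hx : x ≠ 0) (w z : V) : fderiv ℝ (cov J) x w z =
    (‖x‖ ^ 2)⁻¹ * inner ℝ (fderiv ℝ J x w) z -
      ((‖x‖ ^ 2) ^ 2)⁻¹ * (2 * inner ℝ x w) * inner ℝ (J x) z := by
  have hd : HasFDerivAt (cov J) (fderiv ℝ (cov J) x) x :=
    ((h.cov_contDiffAt hx).differentiableAt (by simp)).hasFDerivAt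
  have h1 : HasFDerivAt (fun y => cov J y z) ((fderiv ℝ (cov J) x).flip z) x := by
    simpa using hd.clm_apply (hasFDerivAt_const z x)
  have hn : (‖x‖ ^ 2 : ℝ) ≠ 0 := by positivity
  have h2 : HasFDerivAt (fun y : V => (‖y‖ ^ 2)⁻¹)
      ((-((‖x‖ ^ 2) ^ 2)⁻¹) • (2 • innerSL ℝ x)) x := by
    have h3 := (hasStrictFDerivAt_norm_sq x).hasFDerivAt
    exact (hasDerivAt_inv hn).comp_hasFDerivAt x h3
  have h4 : HasFDerivAt (fun y : V => (inner ℝ (J y) z : ℝ))
      ((innerSL ℝ z).comp (fderiv ℝ J x)) x := by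
    have h5 := (innerSL ℝ z).hasFDerivAt.comp x (h.hasFDerivAt hx)
    have h6 : (fun y : V => (inner ℝ (J y) z : ℝ)) = (innerSL ℝ z) ∘ J := by
      funext y
      simp [real_inner_comm]
    rw [h6]
    exact h5
  have h7 := h2.mul h4
  have h8 := h1.unique h7
  have h9 := DFunLike.congr_fun h8 w
  have h10 : ((fderiv ℝ (cov J) x).flip z) w = fderiv ℝ (cov J) x w z := rfl
  rw [h10] at h9
  rw [h9]
  simp [real_inner_comm]
  ring

theorem psi_contDiffAt {x : V} (hx : x ≠ 0) : ContDiffAt ℝ ∞ (psi J) x :=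
  (dx (E := V)).contDiff.contDiffAt.comp x (h.cov_contDiffAt hx)

/-- contraction of `d psi` with a vector, in terms of covectors -/
theorem iprod_extd_psi {x : V} (hx : x ≠ 0) (v : V) : iprod v (extd (psi J) x) =
    dx (fderiv ℝ (cov J) x v) - dx ((fderiv ℝ (cov J) x).flip v) := by
  have hd : HasFDerivAt (cov J) (fderiv ℝ (cov J) x) x :=
    ((h.cov_contDiffAt hx).differentiableAt (by simp)).hasFDerivAt
  have hb : HasFDerivAt (psi J) (dx ∘L fderiv ℝ (cov J) x) x := dx.hasFDerivAt.comp x hd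
  have h1 := iprod_extd hb.differentiableAt v
  have h2 : (fun y => iprod v (psi J y)) = fn (fun y => cov J y v) := by
    funext y
    rw [psi, iprod_dx, fn]
  have h3 : HasFDerivAt (fun y => cov J y v) ((fderiv ℝ (cov J) x).flip v) x := by
    simpa using hd.clm_apply (hasFDerivAt_const v x)
  rw [h2, extd_fn h3.differentiableAt, h3.fderiv, hb.fderiv] at h1
  exact eq_sub_of_add_eq h1

/-- the connection form is annihilated by the radial direction -/
theorem iprod_self (x : V) : iprod x (psi J x) = 0 := by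
  rw [psi, iprod_dx, cov_apply, h.orth, mul_zero, map_zero]

theorem iprod_self_extd {x : V} (hx : x ≠ 0) : iprod x (extd (psi J) x) = 0 := by
  rw [h.iprod_extd_psi hx, sub_eq_zero]
  congr 1
  have hJx : fderiv ℝ J x x = J x := by
    have h1 : HasDerivAt (fun t : ℝ => t • x) x 1 := by
      simpa using (hasDerivAt_id (1 : ℝ)).smul_const x
    have h3 : HasFDerivAt J (fderiv ℝ J x) ((1 : ℝ) • x) := by
      simpa using h.hasFDerivAt hx
    have h4 := h3.comp_hasDerivAt (1 : ℝ) h1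
    have h5 : (J ∘ fun t : ℝ => t • x) =ᶠ[𝓝 1] fun t : ℝ => t • J x := by
      filter_upwards [lt_mem_nhds (zero_lt_one : (0 : ℝ) < 1)] with t ht
      exact h.hom t ht x
    have h6 := h4.congr_of_eventuallyEq h5.symm
    have h7 : HasDerivAt (fun t : ℝ => t • J x) (J x) 1 := by
      simpa using (hasDerivAt_id (1 : ℝ)).smul_const (J x)
    exact h6.unique h7
  ext z
  change fderiv ℝ (cov J) x x z = fderiv ℝ (cov J) x z x
  have hn : (‖x‖ ^ 2 : ℝ) ≠ 0 := by positivity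
  rw [h.cov_deriv hx, h.cov_deriv hx, hJx, h.orth, h.deriv_orth hx, real_inner_self_eq_norm_sq]
  field_simp
  ring

/-- `psi J` is a connection form -/
theorem conn : Conn J (psi J) where
  smooth x hx := h.psi_contDiffAt hx
  odd x hx := inv_dx _
  one x hx := by
    rw [psi, iprod_dx, cov_apply, real_inner_self_eq_norm_sq, h.norm,
      inv_mul_cancel₀ (by positivity), map_one]
  zero x hx := by
    rw [h.iprod_extd_psi hx, sub_eq_zero]
    congr 1
    ext z
    change fderiv ℝ (cov J) x (J x) z = fderiv ℝ (cov J) x z (J x)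
    have h6 : (inner ℝ x (J x) : ℝ) = 0 := by rw [real_inner_comm, h.orth]
    have h7 : (inner ℝ (fderiv ℝ J x z) (J x) : ℝ) = inner ℝ x z := by
      rw [real_inner_comm, h.deriv_norm hx]
    rw [h.cov_deriv hx, h.cov_deriv hx, h.deriv_J hx, h6, h7, real_inner_self_eq_norm_sq,
      h.norm, inner_neg_left]
    have hn : (‖x‖ ^ 2 : ℝ) ≠ 0 := by positivity
    field_simp
    ring

section Pull

variable {E' : Type*} [NormedAddCommGroup E'] [NormedSpace ℝ E'] [FiniteDimensional ℝ E']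

theorem cov_smul {r : ℝ} (hr : 0 < r) {v : V} (hv : v ≠ 0) : cov J (r • v) = r⁻¹ • cov J v := by
  ext z
  change cov J (r • v) z = r⁻¹ * cov J v z
  rw [cov_apply, cov_apply, h.hom r hr, norm_smul, Real.norm_of_nonneg hr.le, inner_smul_left]
  have hn : ‖v‖ ≠ 0 := norm_ne_zero_iff.2 hv
  simp
  field_simp

theorem cov_self (v : V) : cov J v v = 0 := by
  rw [cov_apply, h.orth, mul_zero]

/-- **HOMOG**: the connection form is invariant under scaling -/
theorem pb_smul {f : E' → V} {r : E' → ℝ} {x : E'} (hf : DifferentiableAt ℝ f x)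
    (hr : DifferentiableAt ℝ r x) (hf0 : f x ≠ 0) (hr0 : 0 < r x) :
    pb (fun y => r y • f y) (psi J) x = pb f (psi J) x := by
  have h1 : HasFDerivAt (fun y => r y • f y)
      (r x • fderiv ℝ f x + (fderiv ℝ r x).smulRight (f x)) x :=
    hr.hasFDerivAt.smul hf.hasFDerivAt
  rw [pb, pb, psi, psi, pull_dx, pull_dx, h1.fderiv, h.cov_smul hr0 hf0]
  congr 1
  ext z
  change (r x)⁻¹ * cov J (f x) (r x • fderiv ℝ f x z + (fderiv ℝ r x z) • f x) =
    cov J (f x) (fderiv ℝ f x z)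
  rw [map_add, map_smul, map_smul, h.cov_self, smul_zero, add_zero, smul_eq_mul, ← mul_assoc,
    inv_mul_cancel₀ hr0.ne', one_mul]

/-- **HOMOG** for the curvature form -/
theorem pb_extd_smul {f : E' → V} {r : E' → ℝ} {x : E'} (hf : ∀ᶠ y in 𝓝 x, ContDiffAt ℝ ∞ f y)
    (hr : ∀ᶠ y in 𝓝 x, ContDiffAt ℝ ∞ r y) (hf0 : f x ≠ 0) (hr0 : 0 < r x) :
    pb (fun y => r y • f y) (extd (psi J)) x = pb f (extd (psi J)) x := by
  have h1 : (pb (fun y => r y • f y) (psi J)) =ᶠ[𝓝 x] pb f (psi J) := by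
    have h2 : ∀ᶠ y in 𝓝 x, f y ≠ 0 :=
      hf.self_of_nhds.continuousAt.eventually (isOpen_ne.mem_nhds hf0)
    have h3 : ∀ᶠ y in 𝓝 x, 0 < r y :=
      hr.self_of_nhds.continuousAt.eventually (lt_mem_nhds hr0)
    filter_upwards [hf, hr, h2, h3] with y h4 h5 h6 h7
    exact h.pb_smul (h4.differentiableAt (by simp)) (h5.differentiableAt (by simp)) h6 h7
  have hfx := hf.self_of_nhds
  have hrx := hr.self_of_nhds
  have hp : r x • f x ≠ 0 := smul_ne_zero hr0.ne' hf0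
  have hrf : ContDiffAt ℝ ∞ (fun y => r y • f y) x := hrx.smul hfx
  rw [← extd_pb (f := fun y => r y • f y) (hrf.of_le two_le_infty)
      ((h.psi_contDiffAt hp).differentiableAt (by simp)),
    ← extd_pb (hfx.of_le two_le_infty) ((h.psi_contDiffAt hf0).differentiableAt (by simp))]
  exact extd_congr h1

/-- pull-back of the connection form under a rotation by a variable angle -/
theorem pb_rot {f₁ f₂ : E' → V} {c s : E' → ℝ} {x : E'} (hf : DifferentiableAt ℝ f₁ x)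
    (hc : DifferentiableAt ℝ c x) (hs : DifferentiableAt ℝ s x)
    (hn : ∀ᶠ y in 𝓝 x, ‖f₁ y‖ = 1) (hcs : c x ^ 2 + s x ^ 2 = 1)
    (h2 : ∀ᶠ y in 𝓝 x, f₂ y = c y • f₁ y + s y • J (f₁ y)) :
    pb f₂ (psi J) x = pb f₁ (psi J) x + dx (c x • fderiv ℝ s x - s x • fderiv ℝ c x) := by
  have hn0 : ‖f₁ x‖ = 1 := hn.self_of_nhds
  have h0 : f₁ x ≠ 0 := by
    intro h0
    rw [h0, norm_zero] at hn0
    exact zero_ne_one hn0
  have hJ : HasFDerivAt (fun y => J (f₁ y)) ((fderiv ℝ J (f₁ x)).comp (fderiv ℝ f₁ x)) x :=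
    (h.hasFDerivAt h0).comp x hf.hasFDerivAt
  have hd : HasFDerivAt f₂ ((c x • fderiv ℝ f₁ x + (fderiv ℝ c x).smulRight (f₁ x)) +
      (s x • (fderiv ℝ J (f₁ x)).comp (fderiv ℝ f₁ x) +
        (fderiv ℝ s x).smulRight (J (f₁ x)))) x :=
    ((hc.hasFDerivAt.smul hf.hasFDerivAt).add (hs.hasFDerivAt.smul hJ)).congr_of_eventuallyEq h2
  have hfx : f₂ x = c x • f₁ x + s x • J (f₁ x) := h2.self_of_nhds
  have hJ2 : J (f₂ x) = -(s x • f₁ x) + c x • J (f₁ x) := by rw [hfx, h.rot _ _ _ hcs]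
  have hab : (inner ℝ (f₁ x) (J (f₁ x)) : ℝ) = 0 := by rw [real_inner_comm, h.orth]
  have hnJ : ‖J (f₁ x)‖ = 1 := by rw [h.norm, hn0]
  have hn2 : ‖f₂ x‖ ^ 2 = 1 := by
    rw [hfx, norm_add_sq_real, norm_smul, norm_smul, inner_smul_left, inner_smul_right, hab, hn0,
      hnJ]
    simp [hcs]
  have horth : ∀ z, (inner ℝ (f₁ x) (fderiv ℝ f₁ x z) : ℝ) = 0 := by
    intro z
    have h3 := (hf.hasFDerivAt).norm_sq
    have h4 : (fun y => ‖f₁ y‖ ^ 2) =ᶠ[𝓝 x] fun _ => (1 : ℝ) := by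
      filter_upwards [hn] with y hy
      rw [hy, one_pow]
    have h5 := (h3.congr_of_eventuallyEq h4.symm).unique (hasFDerivAt_const (1 : ℝ) x)
    have h6 := DFunLike.congr_fun h5 z
    simp at h6
    exact h6
  rw [pb, pb, psi, psi, pull_dx, pull_dx, hd.fderiv, ← map_add]
  congr 1
  ext z
  change cov J (f₂ x) ((c x • fderiv ℝ f₁ x z + (fderiv ℝ c x z) • f₁ x) +
      (s x • fderiv ℝ J (f₁ x) (fderiv ℝ f₁ x z) + (fderiv ℝ s x z) • J (f₁ x))) =
    cov J (f₁ x) (fderiv ℝ f₁ x z) + (c x * fderiv ℝ s x z - s x * fderiv ℝ c x z)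
  have e1 : (inner ℝ (f₁ x) (fderiv ℝ J (f₁ x) (fderiv ℝ f₁ x z)) : ℝ) =
      -inner ℝ (J (f₁ x)) (fderiv ℝ f₁ x z) := by
    rw [real_inner_comm, h.deriv_orth h0]
  have e2 : (inner ℝ (J (f₁ x)) (fderiv ℝ J (f₁ x) (fderiv ℝ f₁ x z)) : ℝ) = 0 := by
    rw [h.deriv_norm h0, horth]
  rw [cov_apply, cov_apply, hn2, hn0, hJ2]
  simp only [inner_add_left, inner_add_right, inner_neg_left, inner_smul_left, inner_smul_right,
    e1, e2, hab, h.orth, horth, real_inner_self_eq_norm_sq, hn0, hnJ]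
  simp
  linear_combination (inner ℝ (J (f₁ x)) (fderiv ℝ f₁ x z)) * hcs

/-- `d` of the difference of the two connection forms vanishes -/
theorem extd_angle {c s : E' → ℝ} {x : E'} (hc : ContDiffAt ℝ ∞ c x) (hs : ContDiffAt ℝ ∞ s x)
    (hcs : ∀ᶠ y in 𝓝 x, c y ^ 2 + s y ^ 2 = 1) :
    extd (fun y => dx (c y • fderiv ℝ s y - s y • fderiv ℝ c y)) x = 0 := by
  have hcd : DifferentiableAt ℝ c x := hc.differentiableAt (by simp)
  have hsd : DifferentiableAt ℝ s x := hs.differentiableAt (by simp)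
  have hdc : DifferentiableAt ℝ (fun y => dx (fderiv ℝ c y)) x :=
    (dx (E := E')).differentiableAt.comp x
      ((hc.fderiv_right (m := ∞) (by simp)).differentiableAt (by simp))
  have hds : DifferentiableAt ℝ (fun y => dx (fderiv ℝ s y)) x :=
    (dx (E := E')).differentiableAt.comp x
      ((hs.fderiv_right (m := ∞) (by simp)).differentiableAt (by simp))
  have e0 : ∀ g : E' → ℝ, ContDiffAt ℝ ∞ g x → extd (fun y => dx (fderiv ℝ g y)) x = 0 := by
    intro g hg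
    have h1 : (fun y => dx (fderiv ℝ g y)) =ᶠ[𝓝 x] extd (fn g) := by
      have h2 : ∀ᶠ y in 𝓝 x, ContDiffAt ℝ 1 g y := (hg.of_le (by simp)).eventually (by simp)
      filter_upwards [h2] with y hy
      exact (extd_fn (hy.differentiableAt (by simp))).symm
    rw [extd_congr h1]
    have h3 : ContDiffAt ℝ ∞ (fn g) x := by
      have h4 : fn g = fun y => g y • (1 : Lam E') := by
        funext y
        rw [fn, Algebra.algebraMap_eq_smul_one]
      rw [h4]
      exact ContDiffAt.smul hg (contDiffAt_const (c := (1 : Lam E')))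
    exact extd_extd (h3.of_le two_le_infty)
  have h1 : (fun y => dx (c y • fderiv ℝ s y - s y • fderiv ℝ c y)) =
      fun y => c y • dx (fderiv ℝ s y) - s y • dx (fderiv ℝ c y) := by
    funext y
    rw [map_sub, map_smul, map_smul]
  rw [h1, extd_sub (hcd.fun_smul hds) (hsd.fun_smul hdc), extd_smul hcd hds, extd_smul hsd hdc, e0 s hs,
    e0 c hc, smul_zero, smul_zero, add_zero, add_zero, dx_anticomm (fderiv ℝ s x)]
  have h2 : c x • fderiv ℝ c x + s x • fderiv ℝ s x = 0 := by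
    have h3 : HasFDerivAt (fun y => c y ^ 2 + s y ^ 2)
        ((2 * c x) • fderiv ℝ c x + (2 * s x) • fderiv ℝ s x) x := by
      have h41 : HasFDerivAt (fun y => c y ^ 2) ((2 * c x) • fderiv ℝ c x) x := by
        have h42 := hcd.hasFDerivAt.pow 2
        simp only [Nat.add_one_sub_one, pow_one, nsmul_eq_mul, Nat.cast_ofNat] at h42
        exact h42
      have h43 : HasFDerivAt (fun y => s y ^ 2) ((2 * s x) • fderiv ℝ s x) x := by
        have h42 := hsd.hasFDerivAt.pow 2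
        simp only [Nat.add_one_sub_one, pow_one, nsmul_eq_mul, Nat.cast_ofNat] at h42
        exact h42
      exact h41.fun_add h43
    have h5 : (fun y => c y ^ 2 + s y ^ 2) =ᶠ[𝓝 x] fun _ => (1 : ℝ) := hcs
    have h6 := (h3.congr_of_eventuallyEq h5.symm).unique (hasFDerivAt_const (1 : ℝ) x)
    have h7 : (2 : ℝ) • (c x • fderiv ℝ c x + s x • fderiv ℝ s x) = 0 := by
      rw [smul_add, smul_smul, smul_smul]
      exact h6
    exact (smul_eq_zero.1 h7).resolve_left two_ne_zero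
  set a := dx (fderiv ℝ c x) with ha
  set b := dx (fderiv ℝ s x) with hb
  have haa : a * a = 0 := dx_mul_self _
  have hbb : b * b = 0 := dx_mul_self _
  have h8 : c x • a + s x • b = 0 := by
    rw [ha, hb, ← map_smul, ← map_smul, ← map_add, h2, map_zero]
  have h9 : a * b = 0 := by
    have h10 : (c x • a + s x • b) * b = 0 := by rw [h8, zero_mul]
    have h11 : a * (c x • a + s x • b) = 0 := by rw [h8, mul_zero]
    rw [add_mul, smul_mul_assoc, smul_mul_assoc, hbb, smul_zero, add_zero] at h10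
    rw [mul_add, mul_smul_comm, mul_smul_comm, haa, smul_zero, zero_add] at h11
    have h12 : a * b = (c x ^ 2 + s x ^ 2) • (a * b) := by
      rw [hcs.self_of_nhds, one_smul]
    rw [h12, add_smul, pow_two, pow_two, mul_smul, mul_smul, h10, h11, smul_zero, smul_zero,
      add_zero]
  rw [h9, neg_zero, sub_zero]

/-- **BASIC**: rotation by a variable angle does not change the pull-back of the curvature -/
theorem pb_extd_rot {f₁ f₂ : E' → V} {c s : E' → ℝ} {x : E'}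
    (hf₁ : ∀ᶠ y in 𝓝 x, ContDiffAt ℝ ∞ f₁ y)
    (hc : ∀ᶠ y in 𝓝 x, ContDiffAt ℝ ∞ c y) (hs : ∀ᶠ y in 𝓝 x, ContDiffAt ℝ ∞ s y)
    (hn : ∀ᶠ y in 𝓝 x, ‖f₁ y‖ = 1) (hcs : ∀ᶠ y in 𝓝 x, c y ^ 2 + s y ^ 2 = 1)
    (h2 : ∀ᶠ y in 𝓝 x, f₂ y = c y • f₁ y + s y • J (f₁ y)) :
    pb f₂ (extd (psi J)) x = pb f₁ (extd (psi J)) x := by
  have hne : ∀ {v : V}, ‖v‖ = 1 → v ≠ 0 := by
    rintro v hv rfl
    rw [norm_zero] at hv
    exact zero_ne_one hv
  have h0 : f₁ x ≠ 0 := hne hn.self_of_nhds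
  have hf₂ : ContDiffAt ℝ ∞ f₂ x := by
    have h3 : ContDiffAt ℝ ∞ (fun y => c y • f₁ y + s y • J (f₁ y)) x :=
      (hc.self_of_nhds.smul hf₁.self_of_nhds).add
        (hs.self_of_nhds.smul ((h.smooth _ h0).comp x hf₁.self_of_nhds))
    exact h3.congr_of_eventuallyEq h2
  have h20 : f₂ x ≠ 0 := by
    intro h3
    have h4 := h2.self_of_nhds
    rw [h3] at h4
    have h5 : (0 : ℝ) = ‖c x • f₁ x + s x • J (f₁ x)‖ ^ 2 := by rw [← h4]; simp
    have hab : (inner ℝ (f₁ x) (J (f₁ x)) : ℝ) = 0 := by rw [real_inner_comm, h.orth]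
    rw [norm_add_sq_real, norm_smul, norm_smul, inner_smul_left, inner_smul_right, hab,
      h.norm, hn.self_of_nhds] at h5
    simp [hcs.self_of_nhds] at h5
  have h6 : pb f₂ (psi J) =ᶠ[𝓝 x] fun y => pb f₁ (psi J) y +
      dx (c y • fderiv ℝ s y - s y • fderiv ℝ c y) := by
    filter_upwards [hf₁, hc, hs, hn.eventually_nhds, hcs, h2.eventually_nhds] with y k1 k2 k3 k4
      k5 k6
    exact h.pb_rot (k1.differentiableAt (by simp)) (k2.differentiableAt (by simp))
      (k3.differentiableAt (by simp)) k4 k5 k6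
  rw [← extd_pb (hf₂.of_le two_le_infty) ((h.psi_contDiffAt h20).differentiableAt (by simp)),
    ← extd_pb (hf₁.self_of_nhds.of_le two_le_infty)
      ((h.psi_contDiffAt h0).differentiableAt (by simp)), extd_congr h6]
  have h7 : DifferentiableAt ℝ (pb f₁ (psi J)) x :=
    (contDiffAt_pb (m := 1) (n := ∞) hf₁.self_of_nhds ((h.psi_contDiffAt h0).of_le (by simp))
      (by norm_cast)).differentiableAt (by simp)
  have h8 : DifferentiableAt ℝ (fun y => dx (c y • fderiv ℝ s y - s y • fderiv ℝ c y)) x := by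
    refine (dx (E := E')).differentiableAt.comp x ?_
    have k1 : DifferentiableAt ℝ (fderiv ℝ c) x :=
      (hc.self_of_nhds.fderiv_right (m := ∞) (by simp)).differentiableAt (by simp)
    have k2 : DifferentiableAt ℝ (fderiv ℝ s) x :=
      (hs.self_of_nhds.fderiv_right (m := ∞) (by simp)).differentiableAt (by simp)
    exact ((hc.self_of_nhds.differentiableAt (by simp)).fun_smul k2).fun_sub
      ((hs.self_of_nhds.differentiableAt (by simp)).fun_smul k1)
  rw [extd_add h7 h8, h.extd_angle hc.self_of_nhds hs.self_of_nhds hcs, add_zero]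

/-- **BASIC**, version with spans -/
theorem pb_extd_span {f₁ f₂ : E' → V} {x : E'}
    (hf₁ : ∀ᶠ y in 𝓝 x, ContDiffAt ℝ ∞ f₁ y) (hf₂ : ∀ᶠ y in 𝓝 x, ContDiffAt ℝ ∞ f₂ y)
    (hn₁ : ∀ᶠ y in 𝓝 x, ‖f₁ y‖ = 1) (hn₂ : ∀ᶠ y in 𝓝 x, ‖f₂ y‖ = 1)
    (h2 : ∀ᶠ y in 𝓝 x, f₂ y ∈ Submodule.span ℝ {f₁ y, J (f₁ y)}) :
    pb f₁ (extd (psi J)) x = pb f₂ (extd (psi J)) x := by
  have h3 : ∀ᶠ y in 𝓝 x, f₂ y = (inner ℝ (f₁ y) (f₂ y) : ℝ) • f₁ y +
      (inner ℝ (J (f₁ y)) (f₂ y) : ℝ) • J (f₁ y) ∧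
      (inner ℝ (f₁ y) (f₂ y) : ℝ) ^ 2 + (inner ℝ (J (f₁ y)) (f₂ y) : ℝ) ^ 2 = 1 := by
    filter_upwards [hn₁, hn₂, h2] with y k1 k2 k3
    obtain ⟨a, b, hab⟩ := Submodule.mem_span_pair.1 k3
    have horth : (inner ℝ (f₁ y) (J (f₁ y)) : ℝ) = 0 := by rw [real_inner_comm, h.orth]
    have e1 : (inner ℝ (f₁ y) (f₂ y) : ℝ) = a := by
      rw [← hab, inner_add_right, inner_smul_right, inner_smul_right, horth,
        real_inner_self_eq_norm_sq, k1]
      ring
    have e2 : (inner ℝ (J (f₁ y)) (f₂ y) : ℝ) = b := by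
      rw [← hab, inner_add_right, inner_smul_right, inner_smul_right, h.orth,
        real_inner_self_eq_norm_sq, h.norm, k1]
      ring
    rw [e1, e2]
    refine ⟨hab.symm, ?_⟩
    have e3 : (inner ℝ (f₂ y) (f₂ y) : ℝ) = a ^ 2 + b ^ 2 := by
      conv_lhs => rw [← hab]
      rw [inner_add_left, inner_smul_left, inner_smul_left]
      simp only [conj_trivial]
      rw [hab, e1, e2]
      ring
    rw [← e3, real_inner_self_eq_norm_sq, k2, one_pow]
  have hne : ∀ᶠ y in 𝓝 x, f₁ y ≠ 0 := by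
    filter_upwards [hn₁] with y k1 k2
    rw [k2, norm_zero] at k1
    exact zero_ne_one k1
  symm
  refine h.pb_extd_rot (c := fun y => (inner ℝ (f₁ y) (f₂ y) : ℝ))
    (s := fun y => (inner ℝ (J (f₁ y)) (f₂ y) : ℝ)) hf₁ ?_ ?_ hn₁ (h3.mono fun y hy => hy.2)
    (h3.mono fun y hy => hy.1)
  · filter_upwards [hf₁, hf₂] with y k1 k2
    exact k1.inner ℝ k2
  · filter_upwards [hf₁, hf₂, hne] with y k1 k2 k3
    exact ((h.smooth _ k3).comp y k1).inner ℝ k2

end Pull

end RJ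

/-! ### cut-off -/

/-- the closed form `d (ρ psi)` -/
noncomputable def GG (J : V → V) (ρ : V → ℝ) : V → Lam V := extd (fun v => ρ v • psi J v)

namespace RJ

open WF

variable (h : RJ J)
include h

theorem cut_contDiff {ρ : V → ℝ} (hρ : ContDiff ℝ ∞ ρ) (h0 : ∀ᶠ v in 𝓝 0, ρ v = 0) :
    ContDiff ℝ ∞ (fun v => ρ v • psi J v) := by
  refine contDiff_iff_contDiffAt.2 fun v => ?_
  rcases eq_or_ne v 0 with rfl | hv
  · refine contDiffAt_const.congr_of_eventuallyEq (f := fun _ => (0 : Lam V)) ?_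
    filter_upwards [h0] with w hw
    rw [hw, zero_smul]
  · exact hρ.contDiffAt.smul (h.psi_contDiffAt hv)

theorem GG_contDiff {ρ : V → ℝ} (hρ : ContDiff ℝ ∞ ρ) (h0 : ∀ᶠ v in 𝓝 0, ρ v = 0) :
    ContDiff ℝ ∞ (GG J ρ) :=
  contDiff_iff_contDiffAt.2 fun v =>
    contDiffAt_extd (m := ∞) (n := ∞) (h.cut_contDiff hρ h0).contDiffAt (by simp)

theorem GG_closed {ρ : V → ℝ} (hρ : ContDiff ℝ ∞ ρ) (h0 : ∀ᶠ v in 𝓝 0, ρ v = 0) (v : V) :
    extd (GG J ρ) v = 0 :=
  extd_extd ((h.cut_contDiff hρ h0).contDiffAt.of_le two_le_infty)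

theorem psi_mem (v : V) : psi J v ∈ WF.hom V 1 := dx_mem_hom _

theorem GG_mem {ρ : V → ℝ} (hρ : ContDiff ℝ ∞ ρ) (h0 : ∀ᶠ v in 𝓝 0, ρ v = 0) (v : V) :
    GG J ρ v ∈ WF.hom V 2 :=
  extd_mem_hom ((h.cut_contDiff hρ h0).contDiffAt.differentiableAt (by simp))
    (Eventually.of_forall fun w => Submodule.smul_mem _ _ (h.psi_mem w))

theorem extd_psi_mem {v : V} (hv : v ≠ 0) : extd (psi J) v ∈ WF.hom V 2 :=
  extd_mem_hom ((h.psi_contDiffAt hv).differentiableAt (by simp))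
    (Eventually.of_forall fun w => h.psi_mem w)

theorem inv_psi (v : V) : inv (psi J v) = -psi J v := inv_dx _

theorem inv_GG {ρ : V → ℝ} (hρ : ContDiff ℝ ∞ ρ) (h0 : ∀ᶠ v in 𝓝 0, ρ v = 0) (v : V) :
    inv (GG J ρ v) = GG J ρ v := by
  rw [inv_of_mem_hom (h.GG_mem hρ h0 v)]
  norm_num

theorem inv_extd_psi {v : V} (hv : v ≠ 0) : inv (extd (psi J) v) = extd (psi J) v := by
  rw [inv_of_mem_hom (h.extd_psi_mem hv)]
  norm_num

theorem GG_eq_of_one {ρ : V → ℝ} {v : V} (h1 : ρ =ᶠ[𝓝 v] 1) : GG J ρ v = extd (psi J) v := by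
  refine extd_congr ?_
  filter_upwards [h1] with w hw
  rw [hw, Pi.one_apply, one_smul]

/-- the curvature is closed off the origin -/
theorem extd_extd_psi {v : V} (hv : v ≠ 0) : extd (extd (psi J)) v = 0 :=
  extd_extd ((h.psi_contDiffAt hv).of_le two_le_infty)

end RJ

end Vale.Agent.P231.WE
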