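import Vale.Agent.P231.WE.Good
import Vale.Agent.P231.WE.Psi
import Vale.Agent.P231.W.Defs

/-! P231, block E3: the closed 2-form `F` on `M` which is `d (ρ ψ)` in polar coordinates at `p`. -/

set_option maxSynthPendingDepth 3
set_option linter.unusedSectionVars false

open Bundle Manifold Set Filter Module
open scoped ContDiff Manifold Topology

namespace Vale.Agent.P231.WE

open Vale.Agent.P234 Vale.Agent.P231 Vale.Agent.P231.H775

noncomputable section

variable {E : Type*} [NormedAddCommGroup E] [NormedSpace ℝ E] [FiniteDimensional ℝ E]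
  {M : Type*} [MetricSpace M] [ChartedSpace E M] [IsManifold 𝓘(ℝ, E) ∞ M]
  [RiemannianBundle (fun x : M => TangentSpace 𝓘(ℝ, E) x)]
  [IsContMDiffRiemannianBundle 𝓘(ℝ, E) ∞ E (fun x : M => TangentSpace 𝓘(ℝ, E) x)]
  {e : ∀ x : M, TangentSpace 𝓘(ℝ, E) x → M}

/-- `J` is the rotation by a quarter turn in the planes of the great circles of `T_p M` -/
structure LineJ (e : ∀ x : M, TangentSpace 𝓘(ℝ, E) x → M) (D : ℝ) (p : M)
    (J : TangentSpace 𝓘(ℝ, E) p → TangentSpace 𝓘(ℝ, E) p) : Prop where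
  rj : RJ J
  cut : ∀ u : TangentSpace 𝓘(ℝ, E) p, ‖u‖ = 1 → e p (D • J u) = e p (D • u)

/-- cut-off functions -/
structure Rho (e : ∀ x : M, TangentSpace 𝓘(ℝ, E) x → M) (D : ℝ) (p : M)
    (ρ : TangentSpace 𝓘(ℝ, E) p → ℝ) (r₀ : ℝ) : Prop where
  smooth : ContDiff ℝ ∞ ρ
  zero : ρ =ᶠ[𝓝 0] 0
  pos : 0 ≤ r₀
  lt : r₀ < D
  one : ∀ v, r₀ < ‖v‖ → ρ v = 1

open Classical in
/-- the value of the form `F` on plots -/
def Fval (e : ∀ x : M, TangentSpace 𝓘(ℝ, E) x → M) (D : ℝ) (p : M)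
    (J : TangentSpace 𝓘(ℝ, E) p → TangentSpace 𝓘(ℝ, E) p) (ρ : TangentSpace 𝓘(ℝ, E) p → ℝ)
    {V : Type*} [NormedAddCommGroup V] [NormedSpace ℝ V] [FiniteDimensional ℝ V]
    (u : V → M) (x : V) : Fm.Lam V :=
  if dist p (u x) < D then Fm.pb (fun y => logMap e p (u y)) (GG J ρ) x
  else if h : ∃ f, Good e D p u f x then Fm.pb h.choose (Fm.extd (psi J)) x else 0

variable {D : ℝ} {p : M} {J : TangentSpace 𝓘(ℝ, E) p → TangentSpace 𝓘(ℝ, E) p}
  {ρ : TangentSpace 𝓘(ℝ, E) p → ℝ} {r₀ : ℝ}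

theorem Rho.eq_one (hρ : Rho e D p ρ r₀) {v : TangentSpace 𝓘(ℝ, E) p} (hv : r₀ < ‖v‖) :
    ρ =ᶠ[𝓝 v] 1 := by
  have h : ∀ᶠ w in 𝓝 v, r₀ < ‖w‖ := continuous_norm.continuousAt.eventually (lt_mem_nhds hv)
  filter_upwards [h] with w hw using hρ.one w hw

variable [CompactSpace M] [ConnectedSpace M] [IsRiemannianManifold 𝓘(ℝ, E) M]

section Unique

variable {V : Type*} [NormedAddCommGroup V] [NormedSpace ℝ V] [FiniteDimensional ℝ V]

/-- two directions with the same cut point are in the same plane -/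
theorem mem_span_of_cut (F : Facts e) (hD : 0 < D) (hB : InjGE e D)
    (hdiam : ∀ p q : M, dist p q ≤ D)
    (hl : ∀ x y : M, dist x y = D → finrank ℝ (Pl e D x y) = 2) (hJ : LineJ e D p J)
    {u w : TangentSpace 𝓘(ℝ, E) p} (hu : ‖u‖ = 1) (hw : ‖w‖ = 1)
    (h : e p (D • u) = e p (D • w)) : w ∈ Submodule.span ℝ ({u, J u} : Set _) := by
  have h1 : u ∈ Lk e D (e p (D • u)) p := ⟨hu, rfl⟩
  have h2 : J u ∈ Lk e D (e p (D • u)) p := ⟨(hJ.rj.norm u).trans hu, hJ.cut u hu⟩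
  have h3 : w ∈ Lk e D (e p (D • u)) p := ⟨hw, h.symm⟩
  have hd := dist_of_Lk hD hB h1
  have h4 := hl _ _ hd
  have h5 : Submodule.span ℝ ({u, J u} : Set (TangentSpace 𝓘(ℝ, E) p)) ≤
      Pl e D (e p (D • u)) p := by
    rw [Submodule.span_le]
    rintro z (rfl | rfl)
    · exact Lk_subset_Pl D _ _ h1
    · exact Lk_subset_Pl D _ _ h2
  have h6 : LinearIndependent ℝ ![u, J u] := by
    rw [LinearIndependent.pair_iff]
    intro a b hab
    have k1 : inner ℝ u (a • u + b • J u) = (0 : ℝ) := by rw [hab, inner_zero_right]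
    have k2 : inner ℝ (J u) (a • u + b • J u) = (0 : ℝ) := by rw [hab, inner_zero_right]
    have k3 : inner ℝ u (J u) = (0 : ℝ) := by rw [real_inner_comm]; exact hJ.rj.orth u
    rw [inner_add_right, inner_smul_right, inner_smul_right, real_inner_self_eq_norm_sq, hu,
      k3] at k1
    rw [inner_add_right, inner_smul_right, inner_smul_right, real_inner_self_eq_norm_sq,
      hJ.rj.orth, hJ.rj.norm, hu] at k2
    constructor
    · linarith only [k1]
    · linarith only [k2]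
  have h7 : finrank ℝ (Submodule.span ℝ ({u, J u} : Set (TangentSpace 𝓘(ℝ, E) p))) = 2 := by
    have := finrank_span_eq_card h6
    rw [Fintype.card_fin, Matrix.range_cons, Matrix.range_cons, Matrix.range_empty,
      union_empty] at this
    exact this
  have h8 := Submodule.eq_of_le_of_finrank_eq h5 (h7.trans h4.symm)
  rw [h8]
  exact Lk_subset_Pl D _ _ h3

/-- all good lifts give the same value -/
theorem good_unique (F : Facts e) (hD : 0 < D) (hB : InjGE e D)
    (hdiam : ∀ p q : M, dist p q ≤ D)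
    (hl : ∀ x y : M, dist x y = D → finrank ℝ (Pl e D x y) = 2) (hJ : LineJ e D p J)
    {u : V → M} {f g : V → TangentSpace 𝓘(ℝ, E) p} {x : V} (hf : Good e D p u f x)
    (hg : Good e D p u g x) :
    Fm.pb f (Fm.extd (psi J)) x = Fm.pb g (Fm.extd (psi J)) x := by
  refine hJ.rj.pb_extd_span (hf.mono fun y hy => hy.1) (hg.mono fun y hy => hy.1)
    (hf.mono fun y hy => hy.2.1) (hg.mono fun y hy => hy.2.1) ?_
  filter_upwards [hf, hg] with y h1 h2
  exact mem_span_of_cut F hD hB hdiam hl hJ h1.2.1 h2.2.1 (h1.2.2.trans h2.2.2.symm)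

/-- a good lift computes `F` outside the small ball -/
theorem Fval_good (F : Facts e) (hD : 0 < D) (hB : InjGE e D)
    (hdiam : ∀ p q : M, dist p q ≤ D)
    (hl : ∀ x y : M, dist x y = D → finrank ℝ (Pl e D x y) = 2) (hJ : LineJ e D p J)
    (hρ : Rho e D p ρ r₀) {u : V → M} {x : V}
    (hu : ∀ᶠ y in 𝓝 x, ContMDiffAt 𝓘(ℝ, V) 𝓘(ℝ, E) ∞ u y) (hr : r₀ < dist p (u x))
    {f : V → TangentSpace 𝓘(ℝ, E) p} (hf : Good e D p u f x) :
    Fval e D p J ρ u x = Fm.pb f (Fm.extd (psi J)) x := by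
  have hp : u x ≠ p := by
    rintro h
    rw [h, dist_self] at hr
    exact absurd hρ.pos (not_le.2 hr)
  unfold Fval
  split_ifs with h h'
  · -- inside the ball
    have hc : ContinuousAt u x := hu.self_of_nhds.continuousAt
    have h1 : ∀ᶠ y in 𝓝 x, dist p (u y) < D :=
      (continuousAt_const.dist hc).eventually (gt_mem_nhds h)
    have h2 : ∀ᶠ y in 𝓝 x, u y ≠ p := hc.eventually (isOpen_ne.mem_nhds hp)
    have h3 : Fm.pb (fun y => logMap e p (u y)) (GG J ρ) x =
        Fm.pb (fun y => logMap e p (u y)) (Fm.extd (psi J)) x := by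
      unfold Fm.pb
      rw [hJ.rj.GG_eq_of_one (hρ.eq_one (by rw [(exp_logMap F hB h).2]; exact hr))]
    have h4 : (fun y => logMap e p (u y)) =ᶠ[𝓝 x]
        fun y => dist p (u y) • dirAt e p (u y) := by
      filter_upwards [h1, h2] with y hy1 hy2
      exact (smul_dirAt F hB hy1 hy2).symm
    have hg := good_dirAt F hB hu h hp
    rw [h3, Fm.pb_congr _ h4, hJ.rj.pb_extd_smul (f := fun y => dirAt e p (u y))
      (r := fun y => dist p (u y)) (hg.mono fun y hy => hy.1) ?_ ?_ ?_]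
    · exact good_unique F hD hB hdiam hl hJ hg hf
    · filter_upwards [hu, h1, h2] with y hy hy1 hy2
      exact ((contMDiffAt_dist F hB hy1 hy2).comp y hy).contDiffAt
    · intro h0
      have := norm_dirAt F hB h hp
      rw [h0, norm_zero] at this
      exact zero_ne_one this
    · exact dist_pos.2 hp.symm
  · exact good_unique F hD hB hdiam hl hJ h'.choose_spec hf
  · exact absurd (exists_good F hD hB hdiam hl hu hp) h'

theorem Fval_lt {u : V → M} {x : V} (h : dist p (u x) < D) :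
    Fval e D p J ρ u x = Fm.pb (fun y => logMap e p (u y)) (GG J ρ) x := by
  unfold Fval
  rw [if_pos h]

end Unique

/-- the closed 2-form `F` -/
def FF (F : Facts e) (hD : 0 < D) (hB : InjGE e D)
    (hdiam : ∀ p q : M, dist p q ≤ D)
    (hl : ∀ x y : M, dist x y = D → finrank ℝ (Pl e D x y) = 2) (hJ : LineJ e D p J)
    (hρ : Rho e D p ρ r₀) : Fm.Form (W.dM E M) :=
  Fm.Form.mk' (fun {V} _ _ _ u x => Fval e D p J ρ u x)
    (by
      intro V _ _ _ u x h
      have hu : ∀ᶠ y in 𝓝 x, ContMDiffAt 𝓘(ℝ, V) 𝓘(ℝ, E) ∞ u y := h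
      have hc : ContinuousAt u x := hu.self_of_nhds.continuousAt
      rcases lt_or_eq_of_le (hdiam p (u x)) with hlt | heq
      · have h1 : ∀ᶠ y in 𝓝 x, dist p (u y) < D :=
          (continuousAt_const.dist hc).eventually (gt_mem_nhds hlt)
        have h2 : (Fval e D p J ρ u) =ᶠ[𝓝 x] Fm.pb (fun y => logMap e p (u y)) (GG J ρ) := by
          filter_upwards [h1] with y hy using Fval_lt hy
        refine ContDiffAt.congr_of_eventuallyEq ?_ h2
        refine Fm.contDiffAt_pb (n := ∞) ?_ (hJ.rj.GG_contDiff hρ.smooth hρ.zero).contDiffAt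
          (by simp)
        exact ((contMDiffAt_logMap_of_dist F hB hlt).comp x hu.self_of_nhds).contDiffAt
      · have hr : r₀ < dist p (u x) := by rw [heq]; exact hρ.lt
        have hp : u x ≠ p := by
          rintro h
          rw [h, dist_self] at hr
          exact absurd hρ.pos (not_le.2 hr)
        obtain ⟨f, hf⟩ := exists_good F hD hB hdiam hl hu hp
        have h1 : ∀ᶠ y in 𝓝 x, r₀ < dist p (u y) :=
          (continuousAt_const.dist hc).eventually (lt_mem_nhds hr)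
        have h2 : (Fval e D p J ρ u) =ᶠ[𝓝 x] Fm.pb f (Fm.extd (psi J)) := by
          filter_upwards [h1, hf.eventually, eventually_eventually_nhds.2 hu] with y hy1 hy2 hy3
          exact Fval_good F hD hB hdiam hl hJ hρ hy3 hy1 hy2
        refine ContDiffAt.congr_of_eventuallyEq ?_ h2
        have h0 : f x ≠ 0 := by
          intro h0
          have := hf.self_of_nhds.2.1
          rw [h0, norm_zero] at this
          exact zero_ne_one this
        refine Fm.contDiffAt_pb (n := ∞) hf.self_of_nhds.1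
          (Fm.contDiffAt_extd (hJ.rj.psi_contDiffAt h0) (m := ∞) (by simp)) (by simp))
    (by
      intro V V' _ _ _ _ _ _ u g x h hg
      have hu : ∀ᶠ y in 𝓝 (g x), ContMDiffAt 𝓘(ℝ, V') 𝓘(ℝ, E) ∞ u y := h
      rcases lt_or_eq_of_le (hdiam p (u (g x))) with hlt | heq
      · rw [Fval_lt hlt, Fval_lt (u := u ∘ g) hlt]
        exact Fm.pb_comp (f := g) (g := fun y => logMap e p (u y)) (GG J ρ)
          ((((contMDiffAt_logMap_of_dist F hB hlt).comp (g x)
            hu.self_of_nhds).contDiffAt).differentiableAt (by simp)) hg.differentiableAt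
      · have hr : r₀ < dist p (u (g x)) := by rw [heq]; exact hρ.lt
        have hp : u (g x) ≠ p := by
          rintro h
          rw [h, dist_self] at hr
          exact absurd hρ.pos (not_le.2 hr)
        obtain ⟨f, hf⟩ := exists_good F hD hB hdiam hl hu hp
        have hug : ∀ᶠ y in 𝓝 x, ContMDiffAt 𝓘(ℝ, V) 𝓘(ℝ, E) ∞ (u ∘ g) y := by
          filter_upwards [hg, hg.continuousAt.eventually hu] with y hy1 hy2
          exact hy2.comp y hy1.contMDiffAt
        rw [Fval_good F hD hB hdiam hl hJ hρ hu hr hf,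
          Fval_good F hD hB hdiam hl hJ hρ hug hr (hf.comp hg)]
        exact Fm.pb_comp (f := g) (g := f) (Fm.extd (psi J))
          (hf.self_of_nhds.1.differentiableAt (by simp)) hg.differentiableAt)
    (by
      intro V _ _ _ u v x h huv
      have hu : ∀ᶠ y in 𝓝 x, ContMDiffAt 𝓘(ℝ, V) 𝓘(ℝ, E) ∞ u y := h
      have hx : u x = v x := huv.self_of_nhds
      have hv : ∀ᶠ y in 𝓝 x, ContMDiffAt 𝓘(ℝ, V) 𝓘(ℝ, E) ∞ v y := by
        filter_upwards [hu, eventually_eventually_nhds.2 huv] with y hy1 hy2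
        exact hy1.congr_of_eventuallyEq (Filter.EventuallyEq.symm hy2)
      rcases lt_or_eq_of_le (hdiam p (u x)) with hlt | heq
      · rw [Fval_lt hlt, Fval_lt (u := v) (by rw [← hx]; exact hlt)]
        refine Fm.pb_congr _ ?_
        filter_upwards [huv] with y hy
        rw [hy]
      · have hr : r₀ < dist p (u x) := by rw [heq]; exact hρ.lt
        have hp : u x ≠ p := by
          rintro h
          rw [h, dist_self] at hr
          exact absurd hρ.pos (not_le.2 hr)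
        obtain ⟨f, hf⟩ := exists_good F hD hB hdiam hl hu hp
        rw [Fval_good F hD hB hdiam hl hJ hρ hu hr hf,
          Fval_good F hD hB hdiam hl hJ hρ hv (by rw [← hx]; exact hr) (hf.congr huv)])

section Facts2

variable {V : Type} [NormedAddCommGroup V] [NormedSpace ℝ V] [FiniteDimensional ℝ V]

/-- the retraction to the cut locus in polar coordinates -/
theorem cutPt_exp (F : Facts e) (hD : 0 < D) (hB : InjGE e D)
    (hdiam : ∀ p q : M, dist p q ≤ D) {w : TangentSpace 𝓘(ℝ, E) p} (hw : w ≠ 0)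
    (hw2 : ‖w‖ < 2 * D) : cutPt e D p (e p w) = e p (D • (‖w‖⁻¹ • w)) := by
  have hwpos : 0 < ‖w‖ := norm_pos_iff.2 hw
  have hun : ‖‖w‖⁻¹ • w‖ = 1 := by
    rw [norm_smul, norm_inv, norm_norm, inv_mul_cancel₀ hwpos.ne']
  have hwu : ‖w‖ • (‖w‖⁻¹ • w) = w := smul_inv_smul₀ hwpos.ne' w
  rcases lt_trichotomy ‖w‖ D with h | h | h
  · have h1 : dist p (e p w) = ‖w‖ := hB p w h.le
    have h2 := dirAt_exp F hB hun hwpos h
    rw [hwu] at h2
    rw [cutPt, if_pos (by rw [h1]; exact h), h2]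
  · have h1 : dist p (e p w) = ‖w‖ := hB p w h.le
    rw [cutPt, if_neg (by rw [h1, h]; exact lt_irrefl D)]
    rw [h] at hwu ⊢
    rw [hwu]
  · have hu : ‖w‖⁻¹ • w ∈ Lk e D (e p (D • (‖w‖⁻¹ • w))) p := ⟨hun, rfl⟩
    obtain ⟨b, hb, hbu⟩ := link_reverse F hu
    have hd := dist_of_Lk hD hB hu
    have hbL : b ∈ Lk e D p (e p (D • (‖w‖⁻¹ • w))) := by
      refine ⟨hb, ?_⟩
      rw [hbu, sub_self, zero_smul]
      exact exp_zero_eq F.isExp p
    have hn : ‖(D - ‖w‖) • b‖ = ‖w‖ - D := by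
      rw [norm_smul, hb, mul_one, Real.norm_of_nonpos (by linarith only [h]), neg_sub]
    have hz : e (e p (D • (‖w‖⁻¹ • w))) ((D - ‖w‖) • b) = e p w := by
      rw [hbu, sub_sub_cancel, hwu]
    have ha0 : (D - ‖w‖) • b ≠ 0 := by
      intro h0
      rw [h0, norm_zero] at hn
      linarith only [hn, h]
    obtain ⟨k1, -, -, k2, -⟩ := exp_dirAt_polar F hD hB hdiam (by rw [dist_comm]; exact hd)
      (Submodule.smul_mem _ _ (Lk_subset_Pl D _ _ hbL)) ha0
      (by rw [hn]; linarith only [hw2]) hz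
    rw [cutPt, if_pos (by rw [k1, hn]; linarith only [h]), k2]

theorem good_exp (F : Facts e) (hD : 0 < D) (hB : InjGE e D)
    (hdiam : ∀ p q : M, dist p q ≤ D) {w : V → TangentSpace 𝓘(ℝ, E) p} {x : V}
    (hws : Fm.Sm w x) (hw : w x ≠ 0) (hw2 : ‖w x‖ < 2 * D) :
    Good e D p (fun y => e p (w y)) (fun y => ‖w y‖⁻¹ • w y) x := by
  have hc : ContinuousAt w x := hws.continuousAt
  have h1 : ∀ᶠ y in 𝓝 x, w y ≠ 0 := hc.eventually (isOpen_ne.mem_nhds hw)
  have h2 : ∀ᶠ y in 𝓝 x, ‖w y‖ < 2 * D := hc.norm.eventually (gt_mem_nhds hw2)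
  filter_upwards [hws, h1, h2] with y hy hy1 hy2
  have h3 : 0 < ‖w y‖ := norm_pos_iff.2 hy1
  refine ⟨((hy.norm ℝ hy1).inv h3.ne').smul hy, ?_, (cutPt_exp F hD hB hdiam hy1 hy2).symm⟩
  rw [norm_smul, norm_inv, norm_norm, inv_mul_cancel₀ h3.ne']

theorem at_exp (F : Facts e) {w : V → TangentSpace 𝓘(ℝ, E) p} {x : V}
    (hws : Fm.Sm w x) : (W.dM E M).At (fun y => e p (w y)) x := by
  have h : ∀ᶠ y in 𝓝 x, ContMDiffAt 𝓘(ℝ, V) 𝓘(ℝ, E) ∞ (fun y => e p (w y)) y := by
    filter_upwards [hws] with y hy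
    exact (contMDiff_exp_fiber F.isExp p).contMDiffAt.comp y hy.contMDiffAt
  exact h

variable (F : Facts e) (hD : 0 < D) (hB : InjGE e D)
    (hdiam : ∀ p q : M, dist p q ≤ D)
    (hl : ∀ x y : M, dist x y = D → finrank ℝ (Pl e D x y) = 2) (hJ : LineJ e D p J)
    (hρ : Rho e D p ρ r₀)

include F hD hB hdiam hl hJ hρ

theorem FF_val {u : V → M} {x : V} (h : (W.dM E M).At u x) :
    (FF F hD hB hdiam hl hJ hρ).val u x = Fval e D p J ρ u x :=
  Fm.Form.mk'_val (D := W.dM E M) h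

/-- `F` in the logarithmic chart -/
theorem FF_lt {u : V → M} {x : V} (h : (W.dM E M).At u x) (hlt : dist p (u x) < D) :
    (FF F hD hB hdiam hl hJ hρ).val u x =
      Fm.pb (fun y => logMap e p (u y)) (GG J ρ) x := by
  rw [FF_val F hD hB hdiam hl hJ hρ h, Fval_lt hlt]

/-- `F` from a lift to the unit sphere -/
theorem FF_good {u : V → M} {x : V} (h : (W.dM E M).At u x) (hr : r₀ < dist p (u x))
    {f : V → TangentSpace 𝓘(ℝ, E) p} (hf : Good e D p u f x) :
    (FF F hD hB hdiam hl hJ hρ).val u x = Fm.pb f (Fm.extd (psi J)) x := by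
  rw [FF_val F hD hB hdiam hl hJ hρ h]
  exact Fval_good F hD hB hdiam hl hJ hρ h hr hf

/-- `F` pulled back by `exp_p` to the ball of radius `D` -/
theorem FF_exp {w : V → TangentSpace 𝓘(ℝ, E) p} {x : V}
    (hws : Fm.Sm w x) (hw : ‖w x‖ < D) :
    (FF F hD hB hdiam hl hJ hρ).val (fun y => e p (w y)) x = Fm.pb w (GG J ρ) x := by
  have h1 : dist p (e p (w x)) = ‖w x‖ := hB p (w x) hw.le
  rw [FF_lt F hD hB hdiam hl hJ hρ (at_exp F hws) (by rw [h1]; exact hw)]
  refine Fm.pb_congr _ ?_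
  have h2 : ∀ᶠ y in 𝓝 x, ‖w y‖ < D := hws.continuousAt.norm.eventually (gt_mem_nhds hw)
  filter_upwards [h2] with y hy
  exact logMap_exp F hB hy

/-- `F` pulled back by `exp_p` to the annulus `r₀ < |w| < 2 D - r₀` -/
theorem FF_exp' {w : V → TangentSpace 𝓘(ℝ, E) p} {x : V}
    (hws : Fm.Sm w x) (hw : r₀ < ‖w x‖) (hw2 : ‖w x‖ < 2 * D - r₀) :
    (FF F hD hB hdiam hl hJ hρ).val (fun y => e p (w y)) x =
      Fm.pb w (Fm.extd (psi J)) x := by
  have hpos : 0 < ‖w x‖ := lt_of_le_of_lt hρ.pos hw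
  have hw0 : w x ≠ 0 := norm_pos_iff.1 hpos
  have hw3 : ‖w x‖ < 2 * D := by linarith only [hw2, hρ.pos]
  have hg := good_exp F hD hB hdiam hws hw0 hw3
  have hdist : r₀ < dist p (e p (w x)) := by
    rcases le_or_gt ‖w x‖ D with h | h
    · rw [hB p (w x) h]
      exact hw
    · have h1 := (hB p (D • (‖w x‖⁻¹ • w x)) (by
        rw [norm_smul, norm_smul, norm_inv, norm_norm, inv_mul_cancel₀ hpos.ne', mul_one,
          Real.norm_of_nonneg hD.le]))
      rw [norm_smul, norm_smul, norm_inv, norm_norm, inv_mul_cancel₀ hpos.ne', mul_one,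
          Real.norm_of_nonneg hD.le] at h1
      have h2 : dist (e p (D • (‖w x‖⁻¹ • w x))) (e p (w x)) ≤ ‖w x‖ - D := by
        have hun : ‖‖w x‖⁻¹ • w x‖ = 1 := by
          rw [norm_smul, norm_inv, norm_norm, inv_mul_cancel₀ hpos.ne']
        obtain ⟨b, hb, hbu⟩ := link_reverse F (⟨hun, rfl⟩ :
          ‖w x‖⁻¹ • w x ∈ Lk e D (e p (D • (‖w x‖⁻¹ • w x))) p)
        have h3 := hbu (D - ‖w x‖)
        rw [sub_sub_cancel, smul_inv_smul₀ hpos.ne'] at h3
        rw [← h3, hB _ _ (by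
          rw [norm_smul, hb, mul_one, Real.norm_of_nonpos (by linarith only [h]), neg_sub]
          linarith only [hw3]), norm_smul, hb, mul_one,
          Real.norm_of_nonpos (by linarith only [h]), neg_sub]
      have h3 := dist_triangle p (e p (w x)) (e p (D • (‖w x‖⁻¹ • w x)))
      rw [dist_comm (e p (w x))] at h3
      linarith only [h1, h2, h3, hw2]
  rw [FF_good F hD hB hdiam hl hJ hρ (at_exp F hws) hdist hg]
  refine hJ.rj.pb_extd_smul (f := w) (r := fun y => ‖w y‖⁻¹) hws ?_ hw0 (inv_pos.2 hpos)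
  have h1 : ∀ᶠ y in 𝓝 x, w y ≠ 0 := hws.continuousAt.eventually (isOpen_ne.mem_nhds hw0)
  filter_upwards [hws, h1] with y hy hy1
  exact (hy.norm ℝ hy1).inv (norm_pos_iff.2 hy1).ne'

end Facts2

section Closed

variable (F : Facts e) (hD : 0 < D) (hB : InjGE e D)
    (hdiam : ∀ p q : M, dist p q ≤ D)
    (hl : ∀ x y : M, dist x y = D → finrank ℝ (Pl e D x y) = 2) (hJ : LineJ e D p J)
    (hρ : Rho e D p ρ r₀)

include F hD hB hdiam hl hJ hρ

/-- near every plot, `F` is the pull-back of a form on the tangent space -/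
theorem FF_local {V : Type} [NormedAddCommGroup V] [NormedSpace ℝ V] [FiniteDimensional ℝ V]
    {u : V → M} {x : V} (h : (W.dM E M).At u x) :
    (∃ f : V → TangentSpace 𝓘(ℝ, E) p, ContDiffAt ℝ ∞ f x ∧
      (FF F hD hB hdiam hl hJ hρ).val u =ᶠ[𝓝 x] Fm.pb f (GG J ρ)) ∨
    (∃ f : V → TangentSpace 𝓘(ℝ, E) p, ContDiffAt ℝ ∞ f x ∧ f x ≠ 0 ∧
      (FF F hD hB hdiam hl hJ hρ).val u =ᶠ[𝓝 x] Fm.pb f (Fm.extd (psi J))) := by
  have hu : ∀ᶠ y in 𝓝 x, ContMDiffAt 𝓘(ℝ, V) 𝓘(ℝ, E) ∞ u y := h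
  have hc : ContinuousAt u x := hu.self_of_nhds.continuousAt
  have ho : ∀ᶠ y in 𝓝 x, (W.dM E M).At u y := (W.dM E M).open' h
  rcases lt_or_eq_of_le (hdiam p (u x)) with hlt | heq
  · left
    refine ⟨fun y => logMap e p (u y),
      ((contMDiffAt_logMap_of_dist F hB hlt).comp x hu.self_of_nhds).contDiffAt, ?_⟩
    have h1 : ∀ᶠ y in 𝓝 x, dist p (u y) < D :=
      (continuousAt_const.dist hc).eventually (gt_mem_nhds hlt)
    filter_upwards [h1, ho] with y hy hy2
    exact FF_lt F hD hB hdiam hl hJ hρ hy2 hy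
  · right
    have hr : r₀ < dist p (u x) := by rw [heq]; exact hρ.lt
    have hp : u x ≠ p := by
      rintro h
      rw [h, dist_self] at hr
      exact absurd hρ.pos (not_le.2 hr)
    obtain ⟨f, hf⟩ := exists_good F hD hB hdiam hl hu hp
    have h1 : ∀ᶠ y in 𝓝 x, r₀ < dist p (u y) :=
      (continuousAt_const.dist hc).eventually (lt_mem_nhds hr)
    refine ⟨f, hf.self_of_nhds.1, ?_, ?_⟩
    · intro h0
      have := hf.self_of_nhds.2.1
      rw [h0, norm_zero] at this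
      exact zero_ne_one this
    · filter_upwards [h1, hf.eventually, ho] with y hy1 hy2 hy3
      exact FF_good F hD hB hdiam hl hJ hρ hy3 hy1 hy2

/-- `F` is closed -/
theorem FF_d : (FF F hD hB hdiam hl hJ hρ).d = 0 := by
  refine Fm.Form.ext_val fun V _ _ _ u x h => ?_
  rw [Fm.Form.d_val _ h, Fm.Form.zero_val]
  rcases FF_local F hD hB hdiam hl hJ hρ h with ⟨f, hf, h1⟩ | ⟨f, hf, hf0, h1⟩
  · rw [Fm.extd_congr h1, Fm.extd_pb (hf.of_le Fm.two_le_infty)
      ((hJ.rj.GG_contDiff hρ.smooth hρ.zero).differentiable (by simp) _)]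
    unfold Fm.pb
    rw [hJ.rj.GG_closed hρ.smooth hρ.zero, map_zero]
  · have h2 := hJ.rj.psi_contDiffAt hf0
    rw [Fm.extd_congr h1, Fm.extd_pb (hf.of_le Fm.two_le_infty)
      ((Fm.contDiffAt_extd h2 (m := ∞) (by simp)).differentiableAt (by simp))]
    unfold Fm.pb
    rw [Fm.extd_extd (h2.of_le Fm.two_le_infty), map_zero]

/-- `F` is even -/
theorem FF_sg : (FF F hD hB hdiam hl hJ hρ).sg = FF F hD hB hdiam hl hJ hρ := by
  refine Fm.Form.ext_val fun V _ _ _ u x h => ?_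
  rw [Fm.Form.sg_val]
  rcases FF_local F hD hB hdiam hl hJ hρ h with ⟨f, hf, h1⟩ | ⟨f, hf, hf0, h1⟩
  · rw [h1.self_of_nhds]
    unfold Fm.pb
    rw [← Fm.pull_inv, hJ.rj.inv_GG hρ.smooth hρ.zero]
  · rw [h1.self_of_nhds]
    unfold Fm.pb
    rw [← Fm.pull_inv, hJ.rj.inv_extd_psi hf0]

/-- `F` has degree two -/
theorem FF_deg : WF.IsDeg (FF F hD hB hdiam hl hJ hρ) 2 := by
  intro V _ _ _ u x h
  rcases FF_local F hD hB hdiam hl hJ hρ h with ⟨f, hf, h1⟩ | ⟨f, hf, hf0, h1⟩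
  · rw [h1.self_of_nhds]
    exact WF.pull_mem_hom _ (hJ.rj.GG_mem hρ.smooth hρ.zero _)
  · rw [h1.self_of_nhds]
    exact WF.pull_mem_hom _ (hJ.rj.extd_psi_mem hf0)

end Closed

end

end Vale.Agent.P231.WE
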