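import Vale.Agent.P231.WE.PolarLog
import Vale.Agent.P231.Fm.Dif2

/-! P231, block E3 (geometry): lifts of the retraction of `M ∖ {p}` onto the cut locus of `p`. -/

set_option maxSynthPendingDepth 3
set_option linter.unusedSectionVars false

open Bundle Manifold Set Filter Module
open scoped ContDiff Manifold Topology

namespace Vale.Agent.P231.WE

open Vale.Agent.P234 Vale.Agent.P231 Vale.Agent.P231.H775

noncomputable section

variable {E : Type*} [NormedAddCommGroup E] [NormedSpace ℝ E] [FiniteDimensional ℝ E]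
  {M : Type*} [MetricSpace M] [ChartedSpace E M] [IsManifold 𝓘(ℝ, E) ∞ M]
  [RiemannianBundle (fun x : M => TangentSpace 𝓘(ℝ, E) x)]
  [IsContMDiffRiemannianBundle 𝓘(ℝ, E) ∞ E (fun x : M => TangentSpace 𝓘(ℝ, E) x)]
  {e : ∀ x : M, TangentSpace 𝓘(ℝ, E) x → M}

open Classical in
/-- the retraction of `M ∖ {p}` onto the cut locus of `p` -/
def cutPt (e : ∀ x : M, TangentSpace 𝓘(ℝ, E) x → M) (D : ℝ) (p z : M) : M :=
  if dist p z < D then e p (D • dirAt e p z) else z

/-- `f` is a smooth unit lift of the retraction along `u`, near `x` -/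
def Good (e : ∀ x : M, TangentSpace 𝓘(ℝ, E) x → M) (D : ℝ) (p : M) {V : Type*}
    [NormedAddCommGroup V] [NormedSpace ℝ V] (u : V → M) (f : V → TangentSpace 𝓘(ℝ, E) p)
    (x : V) : Prop :=
  ∀ᶠ y in 𝓝 x, ContDiffAt ℝ ∞ f y ∧ ‖f y‖ = 1 ∧ e p (D • f y) = cutPt e D p (u y)

section Basic

variable {V : Type*} [NormedAddCommGroup V] [NormedSpace ℝ V]
  {V' : Type*} [NormedAddCommGroup V'] [NormedSpace ℝ V']
  {D : ℝ} {p : M} {u v : V → M} {f : V → TangentSpace 𝓘(ℝ, E) p} {x : V}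

theorem Good.eventually (h : Good e D p u f x) : ∀ᶠ y in 𝓝 x, Good e D p u f y :=
  Filter.Eventually.eventually_nhds h

theorem Good.congr (h : Good e D p u f x) (huv : u =ᶠ[𝓝 x] v) : Good e D p v f x := by
  filter_upwards [h, huv] with y hy h1
  rw [← h1]
  exact hy

theorem Good.comp {g : V' → V} {y : V'} (h : Good e D p u f (g y)) (hg : Fm.Sm g y) :
    Good e D p (u ∘ g) (f ∘ g) y := by
  filter_upwards [hg.continuousAt.eventually h, hg] with z hz hgz
  exact ⟨hz.1.comp z hgz, hz.2.1, hz.2.2⟩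

theorem Good.sm (h : Good e D p u f x) : Fm.Sm f x := by
  filter_upwards [h] with y hy using hy.1

end Basic

/-- the direction of the minimal geodesic is a good lift inside the injectivity ball -/
theorem good_dirAt (F : Facts e) {D : ℝ} (hB : InjGE e D) {p : M} {V : Type*}
    [NormedAddCommGroup V] [NormedSpace ℝ V] {u : V → M} {x : V}
    (hu : ∀ᶠ y in 𝓝 x, ContMDiffAt 𝓘(ℝ, V) 𝓘(ℝ, E) ∞ u y) (h : dist p (u x) < D)
    (hp : u x ≠ p) : Good e D p u (fun y => dirAt e p (u y)) x := by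
  have hc : ContinuousAt u x := hu.self_of_nhds.continuousAt
  have h1 : ∀ᶠ y in 𝓝 x, dist p (u y) < D :=
    (continuousAt_const.dist hc).eventually (gt_mem_nhds h)
  have h2 : ∀ᶠ y in 𝓝 x, u y ≠ p := hc.eventually (isOpen_ne.mem_nhds hp)
  filter_upwards [hu, h1, h2] with y hy hy1 hy2
  refine ⟨((contMDiffAt_dirAt F hB hy1 hy2).comp y hy).contDiffAt, norm_dirAt F hB hy1 hy2, ?_⟩
  rw [cutPt, if_pos hy1]

variable [CompactSpace M] [ConnectedSpace M] [IsRiemannianManifold 𝓘(ℝ, E) M]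

/-- good lifts exist near every plot avoiding `p` -/
theorem exists_good (F : Facts e) {D : ℝ} (hD : 0 < D) (hB : InjGE e D)
    (hdiam : ∀ p q : M, dist p q ≤ D) {l : ℕ}
    (hl : ∀ x y : M, dist x y = D → finrank ℝ (Pl e D x y) = l + 1) {p : M} {V : Type*}
    [NormedAddCommGroup V] [NormedSpace ℝ V] {u : V → M} {x : V}
    (hu : ∀ᶠ y in 𝓝 x, ContMDiffAt 𝓘(ℝ, V) 𝓘(ℝ, E) ∞ u y) (hp : u x ≠ p) :
    ∃ f, Good e D p u f x := by
  rcases lt_or_eq_of_le (hdiam p (u x)) with h | h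
  · exact ⟨_, good_dirAt F hB hu h hp⟩
  · obtain ⟨u₀, hu₀⟩ := exists_Lk F hD (x := p) (y := u x) h
    obtain ⟨f, a, -, -, h1⟩ := exists_polar_plot F hD hB hdiam hl hu hu₀
    refine ⟨f, ?_⟩
    filter_upwards [h1] with y hy
    obtain ⟨k1, k2, k3, k4, k5, k6, k7, k8, k9⟩ := hy
    refine ⟨k1, k3, ?_⟩
    by_cases hlt : dist p (u y) < D
    · rw [cutPt, if_pos hlt, (k9 hlt).2]
    · rw [cutPt, if_neg hlt]
      have h2 : dist p (u y) = D := le_antisymm (hdiam _ _) (not_lt.1 hlt)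
      have h3 : a y = 0 := by
        rw [h2] at k6
        exact norm_eq_zero.1 (by linarith only [k6])
      rw [h3] at k5
      rw [← k5]
      exact (exp_zero_eq F.isExp _).symm

end

end Vale.Agent.P231.WE
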