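import Vale.Agent.P231.WE.Slice

/-! P231, block E1: polar coordinates near the cut locus. -/

set_option maxSynthPendingDepth 3
set_option linter.unusedSectionVars false

open Bundle Manifold Set Filter Module
open scoped ContDiff Manifold Topology

namespace Vale.Agent.P231.WE

open Vale.Agent.P234 Vale.Agent.P231 Vale.Agent.P231.H775

noncomputable section

variable {E : Type*} [NormedAddCommGroup E] [NormedSpace ℝ E] [FiniteDimensional ℝ E]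
  {M : Type*} [MetricSpace M] [ChartedSpace E M] [IsManifold 𝓘(ℝ, E) ∞ M]
  [RiemannianBundle (fun x : M => TangentSpace 𝓘(ℝ, E) x)]
  [IsContMDiffRiemannianBundle 𝓘(ℝ, E) ∞ E (fun x : M => TangentSpace 𝓘(ℝ, E) x)]
  {e : ∀ x : M, TangentSpace 𝓘(ℝ, E) x → M}

instance finDimTS' (x : M) : FiniteDimensional ℝ (TangentSpace 𝓘(ℝ, E) x) :=
  inferInstanceAs (FiniteDimensional ℝ E)

instance complTS' (x : M) : CompleteSpace (TangentSpace 𝓘(ℝ, E) x) :=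
  FiniteDimensional.complete ℝ _

/-- the cut point of the direction in the slice -/
def sg (e : ∀ x : M, TangentSpace 𝓘(ℝ, E) x → M) (D : ℝ) {p : M} (u₀ : TangentSpace 𝓘(ℝ, E) p)
    (Q : Submodule ℝ (TangentSpace 𝓘(ℝ, E) p)) (η : Q) : M := e p (D • slc u₀ Q η)

/-- the normal vector with coordinates `q.2` -/
def sA {D : ℝ} {p : M} {u₀ : TangentSpace 𝓘(ℝ, E) p} {Q : Submodule ℝ (TangentSpace 𝓘(ℝ, E) p)}
    {ι : Type} [Fintype ι] (V : ι → ∀ s : Q, TangentSpace 𝓘(ℝ, E) (sg e D u₀ Q s))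
    (q : Q × (ι → ℝ)) : TangentSpace 𝓘(ℝ, E) (sg e D u₀ Q q.1) := ∑ i, q.2 i • V i q.1

/-- the parametrisation -/
def sP {D : ℝ} {p : M} {u₀ : TangentSpace 𝓘(ℝ, E) p} {Q : Submodule ℝ (TangentSpace 𝓘(ℝ, E) p)}
    {ι : Type} [Fintype ι] (V : ι → ∀ s : Q, TangentSpace 𝓘(ℝ, E) (sg e D u₀ Q s))
    (q : Q × (ι → ℝ)) : M := e (sg e D u₀ Q q.1) (sA V q)

theorem sg_zero (D : ℝ) {p : M} (u₀ : TangentSpace 𝓘(ℝ, E) p)
    (Q : Submodule ℝ (TangentSpace 𝓘(ℝ, E) p)) : sg e D u₀ Q 0 = e p (D • u₀) := by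
  rw [sg, slc_zero]

theorem sA_zero {D : ℝ} {p : M} {u₀ : TangentSpace 𝓘(ℝ, E) p}
    {Q : Submodule ℝ (TangentSpace 𝓘(ℝ, E) p)}
    {ι : Type} [Fintype ι] (V : ι → ∀ s : Q, TangentSpace 𝓘(ℝ, E) (sg e D u₀ Q s)) :
    sA V 0 = 0 := by
  simp [sA]

theorem exp_zero_eq (he : IsExp e) (y : M) : e y 0 = y := by
  have h := gam_zero he y 0
  rw [gam, smul_zero] at h
  exact h

theorem sP_zero (he : IsExp e) {D : ℝ} {p : M} {u₀ : TangentSpace 𝓘(ℝ, E) p}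
    {Q : Submodule ℝ (TangentSpace 𝓘(ℝ, E) p)}
    {ι : Type} [Fintype ι] (V : ι → ∀ s : Q, TangentSpace 𝓘(ℝ, E) (sg e D u₀ Q s)) :
    sP V 0 = sg e D u₀ Q 0 := by
  rw [sP, sA_zero]
  exact exp_zero_eq he _

theorem sg_contMDiff (he : IsExp e) (D : ℝ) {p : M} (u₀ : TangentSpace 𝓘(ℝ, E) p)
    (Q : Submodule ℝ (TangentSpace 𝓘(ℝ, E) p)) (η : Q) :
    ContMDiffAt 𝓘(ℝ, Q) 𝓘(ℝ, E) ∞ (sg e D u₀ Q) η := by
  have h1 : ContDiff ℝ ∞ (fun η : Q => D • slc u₀ Q η) := (slc_contDiff u₀ Q).const_smul D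
  exact ((contMDiff_exp_fiber he p).contMDiffAt).comp η h1.contMDiff.contMDiffAt

theorem sA_smV {D : ℝ} {p : M} {u₀ : TangentSpace 𝓘(ℝ, E) p}
    {Q : Submodule ℝ (TangentSpace 𝓘(ℝ, E) p)} (he : IsExp e)
    {ι : Type} [Fintype ι] (V : ι → ∀ s : Q, TangentSpace 𝓘(ℝ, E) (sg e D u₀ Q s))
    {q : Q × (ι → ℝ)} (hV : ∀ i, SmV (sg e D u₀ Q) (V i) q.1) :
    SmV (fun q : Q × (ι → ℝ) => sg e D u₀ Q q.1) (sA V) q := by
  unfold sA
  refine SmV.sum (V := Q × (ι → ℝ)) Finset.univ ?_ fun i _ => ?_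
  · exact (sg_contMDiff he D u₀ Q q.1).comp q contDiffAt_fst.contMDiffAt
  · refine SmV.smul (V := Q × (ι → ℝ)) (c := fun q : Q × (ι → ℝ) => q.2 i) ?_
      (SmV.comp (V' := Q × (ι → ℝ)) (h := Prod.fst) (hV i) contDiffAt_fst)
    exact (contDiff_apply ℝ ℝ i).contDiffAt.comp q contDiffAt_snd

/-- the derivative of the parametrisation in the slice directions -/
theorem sP_deriv_left (he : IsExp e) {D : ℝ} {p : M} {u₀ : TangentSpace 𝓘(ℝ, E) p}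
    {Q : Submodule ℝ (TangentSpace 𝓘(ℝ, E) p)}
    {ι : Type} [Fintype ι] (V : ι → ∀ s : Q, TangentSpace 𝓘(ℝ, E) (sg e D u₀ Q s))
    (η : Q) {X : E} (hX : HasDerivAt (fun t : ℝ => extChartAt 𝓘(ℝ, E) (sg e D u₀ Q 0)
      (sP V (t • ((η, 0) : Q × (ι → ℝ))))) X 0) :
    (vec (sg e D u₀ Q 0) (sg e D u₀ Q 0) X : E) = dE e p (D • slc u₀ Q 0 : TangentSpace 𝓘(ℝ, E) p)
      (D • (η : TangentSpace 𝓘(ℝ, E) p) : TangentSpace 𝓘(ℝ, E) p) := by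
  have h1 : (fun t : ℝ => sP V (t • ((η, 0) : Q × (ι → ℝ)))) =
      fun t : ℝ => e p (D • slc u₀ Q (t • η)) := by
    funext t
    have h2 : sA V (t • ((η, 0) : Q × (ι → ℝ))) = 0 := by
      simp [sA]
    rw [sP, h2]
    exact exp_zero_eq he _
  have hc : HasDerivAt (fun t : ℝ => D • slc u₀ Q (t • η)) (D • (η : TangentSpace 𝓘(ℝ, E) p)) 0 := by
    have h2 : HasDerivAt (fun t : ℝ => t • η) ((1 : ℝ) • η) 0 :=
      (hasDerivAt_id (0 : ℝ)).smul_const η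
    rw [one_smul] at h2
    have h3 := slc_hasFDerivAt u₀ Q
    have h4 : (0 : Q) = (0 : ℝ) • η := (zero_smul ℝ η).symm
    rw [h4] at h3
    have h5 := h3.comp_hasDerivAt (0 : ℝ) h2
    exact h5.const_smul D
  have h6 := chart_mfderiv (c := fun t : ℝ => e p (D • slc u₀ Q (t • η)))
    (y := sg e D u₀ Q 0) (by simp only [zero_smul]; rfl)
    (refl_exp_curve_mdiff he p hc).continuousAt (X := X) (by
      have h7 : (fun t : ℝ => extChartAt 𝓘(ℝ, E) (sg e D u₀ Q 0)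
          (sP V (t • ((η, 0) : Q × (ι → ℝ))))) = fun t : ℝ => extChartAt 𝓘(ℝ, E) (sg e D u₀ Q 0)
          (e p (D • slc u₀ Q (t • η))) := by
        funext t
        exact congrArg _ (congrFun h1 t)
      rw [h7] at hX
      exact hX)
  have h8 := mfderiv_exp_curve he p hc
  simp only [zero_smul] at h8
  exact h6.symm.trans h8

/-- the derivative of the parametrisation in the normal directions -/
theorem sP_deriv_right (he : IsExp e) {D : ℝ} {p : M} {u₀ : TangentSpace 𝓘(ℝ, E) p}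
    {Q : Submodule ℝ (TangentSpace 𝓘(ℝ, E) p)}
    {ι : Type} [Fintype ι] (V : ι → ∀ s : Q, TangentSpace 𝓘(ℝ, E) (sg e D u₀ Q s))
    (c : ι → ℝ) {X : E} (hX : HasDerivAt (fun t : ℝ => extChartAt 𝓘(ℝ, E) (sg e D u₀ Q 0)
      (sP V (t • ((0, c) : Q × (ι → ℝ))))) X 0) :
    (vec (sg e D u₀ Q 0) (sg e D u₀ Q 0) X : E) = (∑ i, c i • V i 0 : TangentSpace 𝓘(ℝ, E) _) := by
  set w : TangentSpace 𝓘(ℝ, E) (sg e D u₀ Q 0) := ∑ i, c i • V i 0 with hw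
  have h1 : (fun t : ℝ => sP V (t • ((0, c) : Q × (ι → ℝ)))) =
      fun t : ℝ => e (sg e D u₀ Q 0) (t • w) := by
    funext t
    have h2 : ∀ s : Q, s = 0 → e (sg e D u₀ Q s) (∑ i, (t * c i) • V i s) =
        e (sg e D u₀ Q 0) (t • w) := by
      rintro _ rfl
      rw [hw, Finset.smul_sum]
      simp only [smul_smul]
    exact h2 (t • (0 : Q)) (smul_zero t)
  have hc : HasDerivAt (fun t : ℝ => t • w) w 0 := by
    have h2 : HasDerivAt (fun t : ℝ => t • w) ((1 : ℝ) • w) 0 :=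
      (hasDerivAt_id (0 : ℝ)).smul_const w
    rwa [one_smul] at h2
  have h6 := chart_mfderiv (c := fun t : ℝ => e (sg e D u₀ Q 0) (t • w))
    (y := sg e D u₀ Q 0) (by simp only [zero_smul]; exact exp_zero_eq he _)
    (refl_exp_curve_mdiff he _ hc).continuousAt (X := X) (by
      have h7 : (fun t : ℝ => extChartAt 𝓘(ℝ, E) (sg e D u₀ Q 0)
          (sP V (t • ((0, c) : Q × (ι → ℝ))))) = fun t : ℝ => extChartAt 𝓘(ℝ, E) (sg e D u₀ Q 0)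
          (e (sg e D u₀ Q 0) (t • w)) := by
        funext t
        exact congrArg _ (congrFun h1 t)
      rw [h7] at hX
      exact hX)
  have h8 := mfderiv_exp_curve he (sg e D u₀ Q 0) hc
  simp only [zero_smul] at h8
  have h9 : dE e (sg e D u₀ Q 0) ((0 : TangentSpace 𝓘(ℝ, E) (sg e D u₀ Q 0)) : E) w = w :=
    dE_zero_base he _ w
  exact h6.symm.trans (h8.trans h9)


/-- smoothness of the parametrisation in the chart -/
theorem sP_contDiff (he : IsExp e) {D : ℝ} {p : M} {u₀ : TangentSpace 𝓘(ℝ, E) p}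
    {Q : Submodule ℝ (TangentSpace 𝓘(ℝ, E) p)}
    {ι : Type} [Fintype ι] (V : ι → ∀ s : Q, TangentSpace 𝓘(ℝ, E) (sg e D u₀ Q s))
    (hV : ∀ i, ∀ᶠ s in 𝓝 (0 : Q), SmV (sg e D u₀ Q) (V i) s) :
    ∀ᶠ q in 𝓝 (0 : Q × (ι → ℝ)), SmV (fun q : Q × (ι → ℝ) => sg e D u₀ Q q.1) (sA V) q ∧
      ContMDiffAt 𝓘(ℝ, Q × (ι → ℝ)) 𝓘(ℝ, E) ∞ (sP V) q ∧
      sP V q ∈ (extChartAt 𝓘(ℝ, E) (sg e D u₀ Q 0)).source ∧
      ContDiffAt ℝ ∞ (fun q => extChartAt 𝓘(ℝ, E) (sg e D u₀ Q 0) (sP V q)) q := by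
  have hfst : Tendsto (Prod.fst : Q × (ι → ℝ) → Q) (𝓝 0) (𝓝 0) :=
    continuous_fst.tendsto' _ _ rfl
  have h1 : ∀ᶠ q in 𝓝 (0 : Q × (ι → ℝ)), ∀ i, SmV (sg e D u₀ Q) (V i) q.1 :=
    eventually_all.2 fun i => hfst.eventually (hV i)
  have h2 : ∀ᶠ q in 𝓝 (0 : Q × (ι → ℝ)),
      SmV (fun q : Q × (ι → ℝ) => sg e D u₀ Q q.1) (sA V) q ∧
        ContMDiffAt 𝓘(ℝ, Q × (ι → ℝ)) 𝓘(ℝ, E) ∞ (sP V) q := by
    filter_upwards [h1] with q hq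
    have h3 := sA_smV he V hq
    exact ⟨h3, h3.exp he⟩
  have h4 : sP V 0 ∈ (extChartAt 𝓘(ℝ, E) (sg e D u₀ Q 0)).source := by
    rw [sP_zero he]
    exact mem_extChartAt_source _
  have h5 : ∀ᶠ q in 𝓝 (0 : Q × (ι → ℝ)),
      sP V q ∈ (extChartAt 𝓘(ℝ, E) (sg e D u₀ Q 0)).source :=
    (h2.self_of_nhds.2.continuousAt).eventually
      ((isOpen_extChartAt_source (I := 𝓘(ℝ, E)) (sg e D u₀ Q 0)).mem_nhds h4)
  filter_upwards [h2, h5] with q hq1 hq2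
  refine ⟨hq1.1, hq1.2, hq2, ?_⟩
  have h6 : ContMDiffAt 𝓘(ℝ, Q × (ι → ℝ)) 𝓘(ℝ, E) ∞
      (fun q => extChartAt 𝓘(ℝ, E) (sg e D u₀ Q 0) (sP V q)) q :=
    (contMDiffAt_extChartAt' (exm_mem_source hq2)).comp q hq1.2
  exact h6.contDiffAt

variable [CompactSpace M] [ConnectedSpace M] [IsRiemannianManifold 𝓘(ℝ, E) M]

/-- injectivity of the differential of the parametrisation -/
theorem sP_injective (F : Facts e) {D : ℝ} (hD : 0 < D) (hB : InjGE e D)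
    (hdiam : ∀ p q : M, dist p q ≤ D) {p : M}
    {u₀ : TangentSpace 𝓘(ℝ, E) p} (hu : ‖u₀‖ = 1)
    {Q : Submodule ℝ (TangentSpace 𝓘(ℝ, E) p)} (hQ : Q = (Pl e D (sg e D u₀ Q 0) p)ᗮ)
    {ι : Type} [Fintype ι] (V : ι → ∀ s : Q, TangentSpace 𝓘(ℝ, E) (sg e D u₀ Q s))
    (hV : ∀ i, ∀ᶠ s in 𝓝 (0 : Q), SmV (sg e D u₀ Q) (V i) s)
    (hVP : ∀ i, V i 0 ∈ Pl e D p (sg e D u₀ Q 0))
    (hind : LinearIndependent ℝ fun i => V i 0) (ζ : Q × (ι → ℝ))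
    (hζ : fderiv ℝ (fun q => extChartAt 𝓘(ℝ, E) (sg e D u₀ Q 0) (sP V q)) 0 ζ = 0) : ζ = 0 := by
  obtain ⟨η, c⟩ := ζ
  set Ψ : Q × (ι → ℝ) → E := fun q => extChartAt 𝓘(ℝ, E) (sg e D u₀ Q 0) (sP V q) with hΨ
  have hsm : ContDiffAt ℝ ∞ Ψ 0 := (sP_contDiff F.isExp V hV).self_of_nhds.2.2.2
  have hd : HasFDerivAt Ψ (fderiv ℝ Ψ 0) 0 := (hsm.differentiableAt (by simp)).hasFDerivAt
  have hcurve : ∀ ζ : Q × (ι → ℝ), HasDerivAt (fun t : ℝ => Ψ (t • ζ)) (fderiv ℝ Ψ 0 ζ) 0 := by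
    intro ζ
    have h2 : HasDerivAt (fun t : ℝ => t • ζ) ((1 : ℝ) • ζ) 0 :=
      (hasDerivAt_id (0 : ℝ)).smul_const ζ
    rw [one_smul] at h2
    have h3 : HasFDerivAt Ψ (fderiv ℝ Ψ 0) ((0 : ℝ) • ζ) := by
      rw [zero_smul]
      exact hd
    exact h3.comp_hasDerivAt (0 : ℝ) h2
  have hL := sP_deriv_left F.isExp V η (hcurve (η, 0))
  have hR := sP_deriv_right F.isExp V c (hcurve (0, c))
  have hsum : (fderiv ℝ Ψ 0 (η, 0) : E) + fderiv ℝ Ψ 0 (0, c) = 0 := by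
    rw [← map_add]
    simpa using hζ
  set w : TangentSpace 𝓘(ℝ, E) (sg e D u₀ Q 0) := ∑ i, c i • V i 0 with hw
  obtain ⟨wE, hwE⟩ : ∃ wE : E, wE = w := ⟨w, rfl⟩
  obtain ⟨δ, hδ⟩ : ∃ δ : E, δ = dE e p (D • slc u₀ Q 0 : TangentSpace 𝓘(ℝ, E) p)
    (D • (η : TangentSpace 𝓘(ℝ, E) p) : TangentSpace 𝓘(ℝ, E) p) := ⟨_, rfl⟩
  have h1 : δ + wE = 0 := by
    have h3 : ∀ X Y : E, X + Y = 0 → (vec (sg e D u₀ Q 0) (sg e D u₀ Q 0) X : E) +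
          (vec (sg e D u₀ Q 0) (sg e D u₀ Q 0) Y : E) = 0 := by
      intro X Y hXY
      have h5 : vec (sg e D u₀ Q 0) (sg e D u₀ Q 0) (X + Y) =
        vec (sg e D u₀ Q 0) (sg e D u₀ Q 0) X + vec (sg e D u₀ Q 0) (sg e D u₀ Q 0) Y :=
        map_add _ _ _
      rw [hXY, map_zero] at h5
      exact h5.symm
    rw [hwE, hδ, ← hL, ← hR]
    exact h3 _ _ hsum
  have hy : e p (D • slc u₀ Q 0) = sg e D u₀ Q 0 := rfl
  have hn : ‖slc u₀ Q 0‖ = 1 := by rw [slc_zero, hu]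
  have hvL : slc u₀ Q 0 ∈ Lk e D (sg e D u₀ Q 0) p := ⟨hn, hy⟩
  have hηQ : (η : TangentSpace 𝓘(ℝ, E) p) ∈ (Pl e D (sg e D u₀ Q 0) p)ᗮ := by
    rw [← hQ]
    exact η.2
  have hvη : (inner ℝ (slc u₀ Q 0) (η : TangentSpace 𝓘(ℝ, E) p) : ℝ) = 0 :=
    (Submodule.mem_orthogonal _ _).1 hηQ _ (Lk_subset_Pl D _ _ hvL)
  have hwP : w ∈ Pl e D p (sg e D u₀ Q 0) :=
    Submodule.sum_mem _ fun i _ => Submodule.smul_mem _ _ (hVP i)
  have h7 : δ = D • dE e p (D • slc u₀ Q 0 : TangentSpace 𝓘(ℝ, E) p)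
      (η : TangentSpace 𝓘(ℝ, E) p) := by
    rw [hδ]
    exact dE_smul e p _ _ D
  have h8 : ip (E := E) (sg e D u₀ Q 0) wE (dE e p (D • slc u₀ Q 0 : TangentSpace 𝓘(ℝ, E) p)
      (η : TangentSpace 𝓘(ℝ, E) p)) = 0 := by
    rw [hwE]
    exact H703.dE_mem_orthogonal F hD hB hdiam hn hy hvη hwP
  have h9 : ip (E := E) (sg e D u₀ Q 0) wE δ = 0 := by
    rw [h7, asm_ip_smul_right, h8, mul_zero]
  have h10 : ip (E := E) (sg e D u₀ Q 0) wE wE = 0 := by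
    have h11 : ip (E := E) (sg e D u₀ Q 0) wE (δ + wE) =
      ip (E := E) (sg e D u₀ Q 0) wE δ + ip (E := E) (sg e D u₀ Q 0) wE wE :=
      refl_ip_add_right _ _ _ _
    rw [h1, h9, zero_add] at h11
    rw [← h11]
    exact inner_zero_right (𝕜 := ℝ) (E := TangentSpace 𝓘(ℝ, E) (sg e D u₀ Q 0)) _
  have hw0 : wE = 0 := refl_ip_eq_zero _ h10
  have hc0 : c = 0 := by
    have h12 : ∑ i, c i • V i 0 = 0 := by
      rw [← hw]
      exact hwE.symm.trans hw0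
    funext i
    exact Fintype.linearIndependent_iff.1 hind c h12 i
  have hδ0 : δ = 0 := by
    rw [hw0, add_zero] at h1
    exact h1
  have hη0 : η = 0 := by
    rw [h7] at hδ0
    have h13 := (smul_eq_zero.1 hδ0).resolve_left hD.ne'
    have h14 : (η : TangentSpace 𝓘(ℝ, E) p) ∈ Kr e D p (slc u₀ Q 0) := mem_Kr.2 h13
    have h15 := ((mem_Kr_iff F hD hB hdiam hvL).1 h14).1
    have h16 := (Submodule.mem_orthogonal _ _).1 hηQ _ h15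
    exact Subtype.ext (inner_self_eq_zero.1 h16)
  rw [hη0, hc0]
  rfl

/-- local inverse of a map with injective differential between spaces of the same dimension -/
theorem localInverse_inj {W : Type*} [NormedAddCommGroup W] [NormedSpace ℝ W]
    [FiniteDimensional ℝ W] {W' : Type*} [NormedAddCommGroup W'] [NormedSpace ℝ W']
    [FiniteDimensional ℝ W'] {Ψ : W → W'} {q₀ : W}
    (hΨ : ∀ᶠ q in 𝓝 q₀, ContDiffAt ℝ ∞ Ψ q) (hinj : ∀ ζ, fderiv ℝ Ψ q₀ ζ = 0 → ζ = 0)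
    (hdim : finrank ℝ W = finrank ℝ W') :
    ∃ G : W' → W, G (Ψ q₀) = q₀ ∧ (∀ᶠ a in 𝓝 (Ψ q₀), Ψ (G a) = a) ∧
      (∀ᶠ a in 𝓝 (Ψ q₀), ContDiffAt ℝ ∞ G a) := by
  have hi : Function.Injective (fderiv ℝ Ψ q₀ : W →ₗ[ℝ] W') := by
    intro a b hab
    have h1 : fderiv ℝ Ψ q₀ (a - b) = 0 := by
      rw [map_sub]
      exact sub_eq_zero.2 hab
    exact sub_eq_zero.1 (hinj _ h1)
  set T : W ≃L[ℝ] W' :=
    (LinearEquiv.ofInjectiveOfFinrankEq (fderiv ℝ Ψ q₀ : W →ₗ[ℝ] W') hi hdim).toContinuousLinearEquiv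
    with hT
  have hTa : ∀ a, T a = fderiv ℝ Ψ q₀ a := fun a => rfl
  set Ψ' : W → W := fun q => T.symm (Ψ q) with hΨ'
  have hs : ∀ᶠ q in 𝓝 q₀, ContDiffAt ℝ ∞ Ψ' q := by
    filter_upwards [hΨ] with q hq
    exact T.symm.contDiff.contDiffAt.comp q hq
  have hd : fderiv ℝ Ψ' q₀ = (ContinuousLinearEquiv.refl ℝ W : W →L[ℝ] W) := by
    have h1 : HasFDerivAt Ψ (fderiv ℝ Ψ q₀) q₀ :=
      (hΨ.self_of_nhds.differentiableAt (by simp)).hasFDerivAt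
    have h2 : HasFDerivAt Ψ' ((T.symm : W' →L[ℝ] W).comp (fderiv ℝ Ψ q₀)) q₀ :=
      T.symm.toContinuousLinearMap.hasFDerivAt.comp q₀ h1
    rw [h2.fderiv]
    ext a
    change T.symm (fderiv ℝ Ψ q₀ a) = a
    rw [← hTa]
    exact T.symm_apply_apply a
  obtain ⟨G, h1, h2, h3, h4⟩ := localInverse_smooth hs (ContinuousLinearEquiv.refl ℝ W) hd
  refine ⟨fun a => G (T.symm a), h1, ?_, ?_⟩
  · have h5 : Tendsto (fun a : W' => T.symm a) (𝓝 (Ψ q₀)) (𝓝 (Ψ' q₀)) :=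
      T.symm.continuous.tendsto _
    filter_upwards [h5.eventually h3] with a ha
    exact T.symm.injective ha
  · have h5 : Tendsto (fun a : W' => T.symm a) (𝓝 (Ψ q₀)) (𝓝 (Ψ' q₀)) :=
      T.symm.continuous.tendsto _
    filter_upwards [h5.eventually h4] with a ha
    exact ha.comp a T.symm.contDiff.contDiffAt

theorem dist_sg {D : ℝ} (hD : 0 < D) (hB : InjGE e D) {p : M}
    {u₀ : TangentSpace 𝓘(ℝ, E) p} (hu : ‖u₀‖ = 1)
    {Q : Submodule ℝ (TangentSpace 𝓘(ℝ, E) p)} (hQ : ∀ η ∈ Q, inner ℝ u₀ η = (0 : ℝ)) (η : Q) :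
    dist (sg e D u₀ Q η) p = D := by
  have h1 : slc u₀ Q η ∈ Lk e D (sg e D u₀ Q η) p := ⟨slc_norm hu hQ η, rfl⟩
  exact dist_of_Lk hD hB h1

/-- a smooth frame of the normal planes along the slice -/
theorem exists_frame (F : Facts e) {D : ℝ} (hD : 0 < D) (hB : InjGE e D)
    (hdiam : ∀ p q : M, dist p q ≤ D) {l : ℕ}
    (hl : ∀ x y : M, dist x y = D → finrank ℝ (Pl e D x y) = l + 1) {p : M}
    {u₀ : TangentSpace 𝓘(ℝ, E) p} (hu : ‖u₀‖ = 1)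
    {Q : Submodule ℝ (TangentSpace 𝓘(ℝ, E) p)} (hQ : ∀ η ∈ Q, inner ℝ u₀ η = (0 : ℝ)) :
    ∃ V : Fin (l + 1) → ∀ s : Q, TangentSpace 𝓘(ℝ, E) (sg e D u₀ Q s),
      (LinearIndependent ℝ fun i => V i 0) ∧
      ∀ i, ∀ᶠ s in 𝓝 (0 : Q), SmV (sg e D u₀ Q) (V i) s ∧ V i s ∈ Pl e D p (sg e D u₀ Q s) := by
  have hdist : ∀ η : Q, dist (sg e D u₀ Q η) p = D := dist_sg hD hB hu hQ
  have hd0 : dist p (sg e D u₀ Q 0) = D := by rw [dist_comm, hdist]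
  set b := (stdOrthonormalBasis ℝ (Pl e D p (sg e D u₀ Q 0))).reindex
    (finCongr (hl _ _ hd0)) with hb
  have hlift : ∀ i, ∃ u : ∀ s : Q, TangentSpace 𝓘(ℝ, E) (sg e D u₀ Q s),
      u 0 = (b i : TangentSpace 𝓘(ℝ, E) (sg e D u₀ Q 0)) ∧
      ∀ᶠ s in 𝓝 (0 : Q), SmV (sg e D u₀ Q) u s ∧ u s ∈ Lk e D p (sg e D u₀ Q s) := by
    intro i
    refine exists_lift F hD hB hdiam hl (f := sg e D u₀ Q) (g := fun _ => p) (s₀ := (0 : Q))
      (Eventually.of_forall fun s => sg_contMDiff F.isExp D u₀ Q s)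
      (Eventually.of_forall fun s => contMDiffAt_const)
      (Eventually.of_forall fun s => hdist s) ?_
    refine (mem_Lk_iff F hD hB hdiam hd0).2 ⟨?_, (b i).2⟩
    have h1 := b.orthonormal.1 i
    exact h1
  choose V hV0 hV using hlift
  refine ⟨V, ?_, fun i => (hV i).mono fun s hs => ⟨hs.1, Lk_subset_Pl D _ _ hs.2⟩⟩
  have h1 := b.orthonormal.linearIndependent
  have h2 := h1.map' (Pl e D p (sg e D u₀ Q 0)).subtype (Submodule.ker_subtype _)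
  have h3 : (fun i => V i 0) = (Pl e D p (sg e D u₀ Q 0)).subtype ∘ b := by
    funext i
    exact hV0 i
  rw [h3]
  exact h2

/-- the local inverse of the parametrisation, as a map of the manifold -/
theorem exists_inv (F : Facts e) {D : ℝ} (hD : 0 < D) (hB : InjGE e D)
    (hdiam : ∀ p q : M, dist p q ≤ D) {p : M}
    {u₀ : TangentSpace 𝓘(ℝ, E) p} (hu : ‖u₀‖ = 1)
    {Q : Submodule ℝ (TangentSpace 𝓘(ℝ, E) p)} (hQ : Q = (Pl e D (sg e D u₀ Q 0) p)ᗮ)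
    {ι : Type} [Fintype ι] (V : ι → ∀ s : Q, TangentSpace 𝓘(ℝ, E) (sg e D u₀ Q s))
    (hV : ∀ i, ∀ᶠ s in 𝓝 (0 : Q), SmV (sg e D u₀ Q) (V i) s ∧ V i s ∈ Pl e D p (sg e D u₀ Q s))
    (hind : LinearIndependent ℝ fun i => V i 0)
    (hfr : finrank ℝ (Q × (ι → ℝ)) = finrank ℝ E) :
    ∃ g : M → Q × (ι → ℝ), g (sg e D u₀ Q 0) = 0 ∧ ∀ᶠ z in 𝓝 (sg e D u₀ Q 0),
      ContMDiffAt 𝓘(ℝ, E) 𝓘(ℝ, Q × (ι → ℝ)) ∞ g z ∧ sP V (g z) = z := by
  have hVs : ∀ i, ∀ᶠ s in 𝓝 (0 : Q), SmV (sg e D u₀ Q) (V i) s := fun i =>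
    (hV i).mono fun s hs => hs.1
  have hsP := sP_contDiff F.isExp V hVs
  obtain ⟨G, hG0, hG1, hG2⟩ := localInverse_inj
    (Ψ := fun q => extChartAt 𝓘(ℝ, E) (sg e D u₀ Q 0) (sP V q)) (q₀ := (0 : Q × (ι → ℝ)))
    (hsP.mono fun q hq => hq.2.2.2)
    (fun ζ hζ => sP_injective F hD hB hdiam hu hQ V hVs
      (fun i => (hV i).self_of_nhds.2) hind ζ hζ) hfr
  rw [sP_zero F.isExp V] at hG0 hG1 hG2
  set g : M → Q × (ι → ℝ) := fun z => G (extChartAt 𝓘(ℝ, E) (sg e D u₀ Q 0) z) with hg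
  have hgy : g (sg e D u₀ Q 0) = 0 := hG0
  have h1 : ContinuousAt (extChartAt 𝓘(ℝ, E) (sg e D u₀ Q 0)) (sg e D u₀ Q 0) :=
    continuousAt_extChartAt _
  have hgs : ∀ᶠ z in 𝓝 (sg e D u₀ Q 0), ContMDiffAt 𝓘(ℝ, E) 𝓘(ℝ, Q × (ι → ℝ)) ∞ g z := by
    filter_upwards [h1.eventually hG2, extChartAt_source_mem_nhds (I := 𝓘(ℝ, E))
      (sg e D u₀ Q 0)] with z h2 h3
    exact h2.contMDiffAt.comp z (contMDiffAt_extChartAt' (exm_mem_source h3))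
  have hgt : Tendsto g (𝓝 (sg e D u₀ Q 0)) (𝓝 0) := by
    have h1 := hgs.self_of_nhds.continuousAt.tendsto
    rwa [hgy] at h1
  refine ⟨g, hgy, ?_⟩
  filter_upwards [hgs, h1.eventually hG1, extChartAt_source_mem_nhds (I := 𝓘(ℝ, E))
      (sg e D u₀ Q 0), hgt.eventually hsP] with z h0 h2 h3 h4
  exact ⟨h0, (extChartAt 𝓘(ℝ, E) (sg e D u₀ Q 0)).injOn h4.2.2.1 h3 h2⟩

/-- **POLAR COORDINATES NEAR THE CUT LOCUS**: near the cut point `y = exp_p (D u₀)` every point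
`z` is `exp_g a` with `g = exp_p (D U z)`, `U z` a unit vector, `a = A z` in the plane spanned by
the directions at `g` of the minimal geodesics to `p`, smoothly in `z`. -/
theorem exists_polar (F : Facts e) {D : ℝ} (hD : 0 < D) (hB : InjGE e D)
    (hdiam : ∀ p q : M, dist p q ≤ D) {l : ℕ}
    (hl : ∀ x y : M, dist x y = D → finrank ℝ (Pl e D x y) = l + 1) {p y : M}
    {u₀ : TangentSpace 𝓘(ℝ, E) p} (hu : u₀ ∈ Lk e D y p) :
    ∃ (U : M → TangentSpace 𝓘(ℝ, E) p) (A : ∀ z, TangentSpace 𝓘(ℝ, E) (e p (D • U z))),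
      U y = u₀ ∧ A y = 0 ∧ ∀ᶠ z in 𝓝 y,
        ContMDiffAt 𝓘(ℝ, E) 𝓘(ℝ, TangentSpace 𝓘(ℝ, E) p) ∞ U z ∧
        ContMDiffAt 𝓘(ℝ, E) 𝓘(ℝ, E).tangent ∞
          (fun z => (⟨e p (D • U z), A z⟩ : TangentBundle 𝓘(ℝ, E) M)) z ∧
        ‖U z‖ = 1 ∧ A z ∈ Pl e D p (e p (D • U z)) ∧ e (e p (D • U z)) (A z) = z ∧
        dist p z = D - ‖A z‖ := by
  obtain ⟨hu1, hu2⟩ := hu
  subst hu2
  set y : M := e p (D • u₀) with hy
  have huL : u₀ ∈ Lk e D y p := ⟨hu1, rfl⟩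
  set Q : Submodule ℝ (TangentSpace 𝓘(ℝ, E) p) := (Pl e D y p)ᗮ with hQ
  have hQu : ∀ η ∈ Q, inner ℝ u₀ η = (0 : ℝ) := fun η hη =>
    (Submodule.mem_orthogonal _ _).1 hη _ (Lk_subset_Pl D _ _ huL)
  have hg0 : sg e D u₀ Q 0 = y := sg_zero D u₀ Q
  have hdist : ∀ η : Q, dist (sg e D u₀ Q η) p = D := dist_sg hD hB hu1 hQu
  obtain ⟨V, hind, hV⟩ := exists_frame F hD hB hdiam hl hu1 hQu
  have hfr : finrank ℝ (Q × (Fin (l + 1) → ℝ)) = finrank ℝ E := by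
    rw [Module.finrank_prod, Module.finrank_fin_fun]
    have h1 := Submodule.finrank_add_finrank_orthogonal (Pl e D y p)
    rw [hl y p (dist_of_Lk hD hB huL)] at h1
    have h2 : finrank ℝ (TangentSpace 𝓘(ℝ, E) p) = finrank ℝ E := rfl
    rw [h2, ← hQ] at h1
    omega
  obtain ⟨g, hgy, hgz⟩ := exists_inv F hD hB hdiam hu1 (by rw [hg0]) V hV hind hfr
  have hVs : ∀ i, ∀ᶠ s in 𝓝 (0 : Q), SmV (sg e D u₀ Q) (V i) s := fun i =>
    (hV i).mono fun s hs => hs.1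
  have hsP := sP_contDiff F.isExp V hVs
  have hgt : Tendsto g (𝓝 (sg e D u₀ Q 0)) (𝓝 0) := by
    have h1 := hgz.self_of_nhds.1.continuousAt.tendsto
    rwa [hgy] at h1
  have hfst : Tendsto (Prod.fst : Q × (Fin (l + 1) → ℝ) → Q) (𝓝 0) (𝓝 0) :=
    continuous_fst.tendsto' _ _ rfl
  have hgV : ∀ᶠ z in 𝓝 (sg e D u₀ Q 0), sA V (g z) ∈ Pl e D p (sg e D u₀ Q (g z).1) := by
    have h1 : ∀ᶠ s in 𝓝 (0 : Q), ∀ i, V i s ∈ Pl e D p (sg e D u₀ Q s) :=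
      eventually_all.2 fun i => (hV i).mono fun s hs => hs.2
    filter_upwards [hgt.eventually (hfst.eventually h1)] with z hz
    exact Submodule.sum_mem _ fun i _ => Submodule.smul_mem _ _ (hz i)
  have hgA : ∀ᶠ z in 𝓝 (sg e D u₀ Q 0), ContMDiffAt 𝓘(ℝ, E) 𝓘(ℝ, E).tangent ∞
      (fun z => (⟨sg e D u₀ Q (g z).1, sA V (g z)⟩ : TangentBundle 𝓘(ℝ, E) M)) z := by
    filter_upwards [hgz, hgt.eventually hsP] with z h1 h2
    exact ContMDiffAt.comp z h2.1 h1.1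
  have hnorm : ∀ᶠ z in 𝓝 (sg e D u₀ Q 0), ‖sA V (g z)‖ < D := by
    have h1 : ContDiffAt ℝ ∞ (fun q => ‖sA V q‖ ^ 2) 0 := SmV.norm_sq hsP.self_of_nhds.1
    have h2 : Tendsto (fun q => ‖sA V q‖ ^ 2) (𝓝 0) (𝓝 0) := by
      have h3 := h1.continuousAt.tendsto
      have h4 : ‖sA V 0‖ ^ 2 = 0 := by
        rw [sA_zero, norm_zero]
        norm_num
      rwa [h4] at h3
    filter_upwards [hgt.eventually (h2.eventually (gt_mem_nhds (pow_pos hD 2)))] with z hz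
    exact lt_of_pow_lt_pow_left₀ 2 hD.le hz
  rw [hg0] at hgy hgz hgV hgA hnorm
  refine ⟨fun z => slc u₀ Q (g z).1, fun z => sA V (g z), ?_, ?_, ?_⟩
  · simp only
    rw [hgy]
    exact slc_zero u₀ Q
  · simp only
    rw [hgy]
    exact sA_zero V
  filter_upwards [hgz, hgV, hgA, hnorm] with z h1 h3 h4 h5
  refine ⟨?_, h4, slc_norm hu1 hQu _, h3, h1.2, ?_⟩
  · have h6 : ContDiff ℝ ∞ (slc u₀ Q) := slc_contDiff u₀ Q
    have h7 : ContDiff ℝ ∞ (fun q : Q × (Fin (l + 1) → ℝ) => slc u₀ Q q.1) := h6.comp contDiff_fst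
    exact h7.contMDiff.contMDiffAt.comp z h1.1
  · have h6 : dist p (sg e D u₀ Q (g z).1) = D := by rw [dist_comm, hdist]
    obtain ⟨v, hv, hv2⟩ := exists_Lk_of_Pl F hD hB hdiam h6 h3
    have h7 := per_se_dist F hB hD hv.1 (norm_nonneg (sA V (g z))) h5.le
    have h8 : e (sg e D u₀ Q (g z).1) (‖sA V (g z)‖ • v) = z := by
      rw [← hv2]
      exact h1.2
    rw [h8, hv.2, dist_comm] at h7
    exact h7

end

end Vale.Agent.P231.WE
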