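import Vale.Agent.P231.WE.Polar

/-! P231, block E1: the logarithm inside the injectivity ball, comparison with the polar
coordinates near the cut locus, versions for plots. -/

set_option maxSynthPendingDepth 3
set_option linter.unusedSectionVars false

open Bundle Manifold Set Filter Module
open scoped ContDiff Manifold Topology

namespace Vale.Agent.P231.WE

open Vale.Agent.P234 Vale.Agent.P231 Vale.Agent.P231.H775

noncomputable section

variable {E : Type*} [NormedAddCommGroup E] [NormedSpace ℝ E] [FiniteDimensional ℝ E]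
  {M : Type*} [MetricSpace M] [ChartedSpace E M] [IsManifold 𝓘(ℝ, E) ∞ M]
  [RiemannianBundle (fun x : M => TangentSpace 𝓘(ℝ, E) x)]
  [IsContMDiffRiemannianBundle 𝓘(ℝ, E) ∞ E (fun x : M => TangentSpace 𝓘(ℝ, E) x)]
  {e : ∀ x : M, TangentSpace 𝓘(ℝ, E) x → M}

/-- the logarithm inverts the exponential map inside the ball -/
theorem logMap_exp (F : Facts e) {D : ℝ} (hB : InjGE e D) {p : M} {v : TangentSpace 𝓘(ℝ, E) p}
    (hv : ‖v‖ < D) : logMap e p (e p v) = v :=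
  logMap_eq F.isExp (hB p v hv.le) (per_se_smooth F hB hv)

theorem smoothAt_of_dist (F : Facts e) {D : ℝ} (hB : InjGE e D) {p z : M} (h : dist p z < D) :
    SmoothAt E p z := by
  obtain ⟨v, hv, hd⟩ := F.hopfRinow p z
  rw [← hv]
  exact per_se_smooth F hB (by rw [← hd]; exact h)

/-- the exponential map inverts the logarithm inside the ball -/
theorem exp_logMap (F : Facts e) {D : ℝ} (hB : InjGE e D) {p z : M} (h : dist p z < D) :
    e p (logMap e p z) = z ∧ ‖logMap e p z‖ = dist p z := by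
  obtain ⟨v, hv, hd⟩ := F.hopfRinow p z
  have h1 := logMap_exp F hB (p := p) (v := v) (by rw [← hd]; exact h)
  rw [hv] at h1
  rw [h1, hv, hd]
  exact ⟨rfl, rfl⟩

theorem contMDiffAt_logMap_of_dist (F : Facts e) {D : ℝ} (hB : InjGE e D) {p z : M}
    (h : dist p z < D) :
    ContMDiffAt 𝓘(ℝ, E) 𝓘(ℝ, TangentSpace 𝓘(ℝ, E) p) ∞ (logMap e p) z :=
  contMDiffAt_logMap F.isExp (smoothAt_of_dist F hB h)

/-- the distance function is smooth in the punctured ball -/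
theorem contMDiffAt_dist (F : Facts e) {D : ℝ} (hB : InjGE e D) {p z : M}
    (h : dist p z < D) (hz : z ≠ p) : ContMDiffAt 𝓘(ℝ, E) 𝓘(ℝ, ℝ) ∞ (fun z => dist p z) z := by
  have h0 : logMap e p z ≠ 0 := by
    intro h0
    have h1 := (exp_logMap F hB h).2
    rw [h0, norm_zero] at h1
    exact hz (dist_eq_zero.1 h1.symm).symm
  have h1 : ContMDiffAt 𝓘(ℝ, E) 𝓘(ℝ, ℝ) ∞ (fun z => ‖logMap e p z‖) z :=
    ((contDiffAt_norm ℝ h0).contMDiffAt).comp z (contMDiffAt_logMap_of_dist F hB h)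
  refine h1.congr_of_eventuallyEq ?_
  have h2 : ContinuousAt (fun z => dist p z) z := (continuous_const.dist continuous_id).continuousAt
  filter_upwards [h2.eventually (gt_mem_nhds h)] with z' hz'
  exact (exp_logMap F hB hz').2.symm

/-- the direction at `p` of the minimal geodesic to `z` -/
def dirAt (e : ∀ x : M, TangentSpace 𝓘(ℝ, E) x → M) (p z : M) : TangentSpace 𝓘(ℝ, E) p :=
  ‖logMap e p z‖⁻¹ • logMap e p z

theorem norm_dirAt (F : Facts e) {D : ℝ} (hB : InjGE e D) {p z : M} (h : dist p z < D)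
    (hz : z ≠ p) : ‖dirAt e p z‖ = 1 := by
  have h1 := (exp_logMap F hB h).2
  have h2 : 0 < ‖logMap e p z‖ := by
    rw [h1]
    exact dist_pos.2 hz.symm
  rw [dirAt, norm_smul, norm_inv, norm_norm, inv_mul_cancel₀ h2.ne']

theorem smul_dirAt (F : Facts e) {D : ℝ} (hB : InjGE e D) {p z : M} (h : dist p z < D)
    (hz : z ≠ p) : dist p z • dirAt e p z = logMap e p z := by
  have h1 := (exp_logMap F hB h).2
  have h2 : 0 < ‖logMap e p z‖ := by
    rw [h1]
    exact dist_pos.2 hz.symm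
  rw [dirAt, ← h1, smul_smul, mul_inv_cancel₀ h2.ne', one_smul]

theorem exp_smul_dirAt (F : Facts e) {D : ℝ} (hB : InjGE e D) {p z : M} (h : dist p z < D)
    (hz : z ≠ p) : e p (dist p z • dirAt e p z) = z := by
  rw [smul_dirAt F hB h hz]
  exact (exp_logMap F hB h).1

/-- `dirAt` recovers the direction -/
theorem dirAt_exp (F : Facts e) {D : ℝ} (hB : InjGE e D) {p : M} {v : TangentSpace 𝓘(ℝ, E) p}
    (hv : ‖v‖ = 1) {r : ℝ} (hr : 0 < r) (hrD : r < D) : dirAt e p (e p (r • v)) = v := by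
  have h1 : ‖r • v‖ = r := by rw [norm_smul, hv, mul_one, Real.norm_of_nonneg hr.le]
  rw [dirAt, logMap_exp F hB (by rw [h1]; exact hrD), h1, smul_smul, inv_mul_cancel₀ hr.ne',
    one_smul]

theorem contMDiffAt_dirAt (F : Facts e) {D : ℝ} (hB : InjGE e D) {p z : M}
    (h : dist p z < D) (hz : z ≠ p) :
    ContMDiffAt 𝓘(ℝ, E) 𝓘(ℝ, TangentSpace 𝓘(ℝ, E) p) ∞ (dirAt e p) z := by
  have h0 : logMap e p z ≠ 0 := by
    intro h0
    have h1 := (exp_logMap F hB h).2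
    rw [h0, norm_zero] at h1
    exact hz (dist_eq_zero.1 h1.symm).symm
  have h1 : ContDiffAt ℝ ∞ (fun v : TangentSpace 𝓘(ℝ, E) p => ‖v‖⁻¹ • v) (logMap e p z) :=
    ((contDiffAt_norm ℝ h0).inv (norm_ne_zero_iff.2 h0)).smul contDiffAt_id
  exact h1.contMDiffAt.comp z (contMDiffAt_logMap_of_dist F hB h)

variable [CompactSpace M] [ConnectedSpace M] [IsRiemannianManifold 𝓘(ℝ, E) M]

/-- Away from the cut locus, the direction at `p` of the minimal geodesic to `z = exp_g a`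
(`a` in the normal plane at the cut point `g`) is another minimal direction to `g`. -/
theorem exp_dirAt_polar (F : Facts e) {D : ℝ} (hD : 0 < D) (hB : InjGE e D)
    (hdiam : ∀ p q : M, dist p q ≤ D) {p g z : M} (hg : dist p g = D)
    {a : TangentSpace 𝓘(ℝ, E) g} (ha : a ∈ Pl e D p g) (ha0 : a ≠ 0) (haD : ‖a‖ < D)
    (hz : e g a = z) :
    dist p z = D - ‖a‖ ∧ z ≠ p ∧ ‖dirAt e p z‖ = 1 ∧ e p (D • dirAt e p z) = g ∧
      e p ((D - ‖a‖) • dirAt e p z) = z := by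
  obtain ⟨b, hb, hab⟩ := exists_Lk_of_Pl F hD hB hdiam hg ha
  obtain ⟨v, hv, hvb⟩ := link_reverse F hb
  have hapos : 0 < ‖a‖ := norm_pos_iff.2 ha0
  have h1 : e p ((D - ‖a‖) • v) = z := by
    rw [hvb, sub_sub_cancel, ← hab, hz]
  have h2 : e p (D • v) = g := by
    rw [hvb, sub_self, zero_smul]
    exact exp_zero_eq F.isExp g
  have h3 : dirAt e p z = v := by
    rw [← h1]
    exact dirAt_exp F hB hv (by linarith only [haD]) (by linarith only [hapos])
  have h4 : dist p z = D - ‖a‖ := by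
    rw [← h1, hB p _ (by
      rw [norm_smul, hv, mul_one, Real.norm_of_nonneg (by linarith only [haD])]
      linarith only [hapos]), norm_smul, hv, mul_one,
      Real.norm_of_nonneg (by linarith only [haD])]
  refine ⟨h4, ?_, ?_, ?_, ?_⟩
  · intro h5
    rw [h5, dist_self] at h4
    linarith only [h4, haD]
  · rw [h3, hv]
  · rw [h3, h2]
  · rw [h3, h1]

/-- polar coordinates, with the comparison with the logarithm -/
theorem exists_polar' (F : Facts e) {D : ℝ} (hD : 0 < D) (hB : InjGE e D)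
    (hdiam : ∀ p q : M, dist p q ≤ D) {l : ℕ}
    (hl : ∀ x y : M, dist x y = D → finrank ℝ (Pl e D x y) = l + 1) {p y : M}
    {u₀ : TangentSpace 𝓘(ℝ, E) p} (hu : u₀ ∈ Lk e D y p) :
    ∃ (U : M → TangentSpace 𝓘(ℝ, E) p) (A : ∀ z, TangentSpace 𝓘(ℝ, E) (e p (D • U z))),
      U y = u₀ ∧ A y = 0 ∧ ∀ᶠ z in 𝓝 y,
        ContMDiffAt 𝓘(ℝ, E) 𝓘(ℝ, TangentSpace 𝓘(ℝ, E) p) ∞ U z ∧
        ContMDiffAt 𝓘(ℝ, E) 𝓘(ℝ, E).tangent ∞
          (fun z => (⟨e p (D • U z), A z⟩ : TangentBundle 𝓘(ℝ, E) M)) z ∧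
        ‖U z‖ = 1 ∧ A z ∈ Pl e D p (e p (D • U z)) ∧ e (e p (D • U z)) (A z) = z ∧
        dist p z = D - ‖A z‖ ∧ z ≠ p ∧ ‖A z‖ < D ∧
        (dist p z < D → ‖dirAt e p z‖ = 1 ∧ e p (D • dirAt e p z) = e p (D • U z)) := by
  obtain ⟨U, A, h1, h2, h3⟩ := exists_polar F hD hB hdiam hl hu
  refine ⟨U, A, h1, h2, ?_⟩
  have hyp : y ≠ p := by
    rintro rfl
    have h4 := dist_of_Lk hD hB hu
    rw [dist_self] at h4
    exact hD.ne h4
  have h5 : ∀ᶠ z in 𝓝 y, z ≠ p := isOpen_ne.mem_nhds hyp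
  filter_upwards [h3, h5] with z hz hzp
  obtain ⟨k1, k2, k3, k4, k5, k6⟩ := hz
  have k7 : ‖A z‖ < D := by
    have h6 : 0 < dist p z := dist_pos.2 hzp.symm
    linarith only [h6, k6]
  refine ⟨k1, k2, k3, k4, k5, k6, hzp, k7, fun hlt => ?_⟩
  have hA0 : A z ≠ 0 := by
    intro h0
    rw [h0, norm_zero, sub_zero] at k6
    exact hlt.ne k6
  have hd : dist p (e p (D • U z)) = D := by
    rw [dist_comm]
    exact dist_of_Lk hD hB (⟨k3, rfl⟩ : U z ∈ Lk e D (e p (D • U z)) p)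
  obtain ⟨-, -, j1, j2, -⟩ := exp_dirAt_polar F hD hB hdiam hd k4 hA0 k7 k5
  exact ⟨j1, j2⟩

variable {V : Type*} [NormedAddCommGroup V] [NormedSpace ℝ V]

/-- **E1 for plots**: polar coordinates near the cut locus along a smooth map `f`. -/
theorem exists_polar_plot (F : Facts e) {D : ℝ} (hD : 0 < D) (hB : InjGE e D)
    (hdiam : ∀ p q : M, dist p q ≤ D) {l : ℕ}
    (hl : ∀ x y : M, dist x y = D → finrank ℝ (Pl e D x y) = l + 1) {p : M} {f : V → M} {s₀ : V}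
    (hf : ∀ᶠ s in 𝓝 s₀, ContMDiffAt 𝓘(ℝ, V) 𝓘(ℝ, E) ∞ f s)
    {u₀ : TangentSpace 𝓘(ℝ, E) p} (hu : u₀ ∈ Lk e D (f s₀) p) :
    ∃ (u : V → TangentSpace 𝓘(ℝ, E) p) (a : ∀ s, TangentSpace 𝓘(ℝ, E) (e p (D • u s))),
      u s₀ = u₀ ∧ a s₀ = 0 ∧ ∀ᶠ s in 𝓝 s₀, ContDiffAt ℝ ∞ u s ∧
        SmV (fun s => e p (D • u s)) a s ∧ ‖u s‖ = 1 ∧ a s ∈ Pl e D p (e p (D • u s)) ∧
        e (e p (D • u s)) (a s) = f s ∧ dist p (f s) = D - ‖a s‖ ∧ f s ≠ p ∧ ‖a s‖ < D ∧
        (dist p (f s) < D → ‖dirAt e p (f s)‖ = 1 ∧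
          e p (D • dirAt e p (f s)) = e p (D • u s)) := by
  obtain ⟨U, A, h1, h2, h3⟩ := exists_polar' F hD hB hdiam hl hu
  refine ⟨fun s => U (f s), fun s => A (f s), h1, h2, ?_⟩
  filter_upwards [hf, hf.self_of_nhds.continuousAt.eventually h3] with s hs hz
  obtain ⟨k1, k2, k3, k4, k5, k6, k7, k8, k9⟩ := hz
  exact ⟨(k1.comp s hs).contDiffAt, ContMDiffAt.comp s k2 hs, k3, k4, k5, k6, k7, k8, k9⟩

end

end Vale.Agent.P231.WE
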