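import Vale.Agent.P231.Fm.Dif2

/-! P231: forms on a diffeological space given locally (gluing lemma). -/

set_option linter.unusedSectionVars false
set_option linter.unusedVariables false

open Set Module Filter Topology
open scoped ContDiff

namespace Vale.Agent.P231.WE

open Vale.Agent.P231.Fm

/-- Local data of a form: `R u x α` says that near `x` the form has the representative `α` along
the plot `u`. -/
structure LocRel {X : Type*} (D : Dif X) where
  /-- `α` is the local representative of the form along `u` near `x` -/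
  R : ∀ {E : Type} [NormedAddCommGroup E] [NormedSpace ℝ E] [FiniteDimensional ℝ E],
    (E → X) → E → (E → Lam E) → Prop
  ex : ∀ {E : Type} [NormedAddCommGroup E] [NormedSpace ℝ E] [FiniteDimensional ℝ E]
    {u : E → X} {x : E}, D.At u x → ∃ α, R u x α
  sm : ∀ {E : Type} [NormedAddCommGroup E] [NormedSpace ℝ E] [FiniteDimensional ℝ E]
    {u : E → X} {x : E} {α : E → Lam E}, D.At u x → R u x α → ContDiffAt ℝ ∞ α x
  uniq : ∀ {E : Type} [NormedAddCommGroup E] [NormedSpace ℝ E] [FiniteDimensional ℝ E]
    {u : E → X} {x : E} {α β : E → Lam E}, D.At u x → R u x α → R u x β → α x = β x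
  loc : ∀ {E : Type} [NormedAddCommGroup E] [NormedSpace ℝ E] [FiniteDimensional ℝ E]
    {u : E → X} {x : E} {α : E → Lam E}, D.At u x → R u x α → ∀ᶠ y in 𝓝 x, R u y α
  nat : ∀ {E F : Type} [NormedAddCommGroup E] [NormedSpace ℝ E] [FiniteDimensional ℝ E]
    [NormedAddCommGroup F] [NormedSpace ℝ F] [FiniteDimensional ℝ F]
    {u : F → X} {g : E → F} {x : E} {α : F → Lam F}, D.At u (g x) → Sm g x → R u (g x) α →
      R (u ∘ g) x (pb g α)
  congr : ∀ {E : Type} [NormedAddCommGroup E] [NormedSpace ℝ E] [FiniteDimensional ℝ E]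
    {u v : E → X} {x : E} {α : E → Lam E}, D.At u x → u =ᶠ[𝓝 x] v → R u x α → R v x α

namespace LocRel

variable {X : Type*} {D : Dif X} (L : LocRel D)

open Classical in
/-- the chosen value -/
noncomputable def value {E : Type} [NormedAddCommGroup E] [NormedSpace ℝ E]
    [FiniteDimensional ℝ E] (u : E → X) (x : E) : Lam E :=
  if h : ∃ α, L.R u x α then h.choose x else 0

theorem value_eq {E : Type} [NormedAddCommGroup E] [NormedSpace ℝ E] [FiniteDimensional ℝ E]
    {u : E → X} {x : E} {α : E → Lam E} (hu : D.At u x) (h : L.R u x α) :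
    L.value u x = α x := by
  have hex : ∃ α, L.R u x α := ⟨α, h⟩
  unfold value
  rw [dif_pos hex]
  exact L.uniq hu hex.choose_spec h

theorem value_eventuallyEq {E : Type} [NormedAddCommGroup E] [NormedSpace ℝ E]
    [FiniteDimensional ℝ E] {u : E → X} {x : E} {α : E → Lam E} (hu : D.At u x)
    (h : L.R u x α) : (fun y => L.value u y) =ᶠ[𝓝 x] α := by
  filter_upwards [L.loc hu h, D.open' hu] with y h1 h2
  exact L.value_eq h2 h1

/-- the form glued from the local data -/
noncomputable def form : Form D :=
  Form.mk' (fun u x => L.value u x)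
    (fun {E} _ _ _ {u x} h => by
      obtain ⟨α, hα⟩ := L.ex h
      exact (L.sm h hα).congr_of_eventuallyEq (L.value_eventuallyEq h hα))
    (fun {E F} _ _ _ _ _ _ {u g x} h hg => by
      obtain ⟨α, hα⟩ := L.ex h
      rw [L.value_eq h hα, L.value_eq (D.comp h hg) (L.nat h hg hα)]
      rfl)
    (fun {E} _ _ _ {u v x} h huv => by
      obtain ⟨α, hα⟩ := L.ex h
      rw [L.value_eq h hα, L.value_eq (D.congr h huv) (L.congr h huv hα)])

theorem form_val {E : Type} [NormedAddCommGroup E] [NormedSpace ℝ E] [FiniteDimensional ℝ E]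
    {u : E → X} {x : E} {α : E → Lam E} (hu : D.At u x) (h : L.R u x α) :
    L.form.val u x = α x := by
  unfold form
  rw [Form.mk'_val hu]
  exact L.value_eq hu h

theorem form_eventuallyEq {E : Type} [NormedAddCommGroup E] [NormedSpace ℝ E]
    [FiniteDimensional ℝ E] {u : E → X} {x : E} {α : E → Lam E} (hu : D.At u x)
    (h : L.R u x α) : L.form.val u =ᶠ[𝓝 x] α := by
  filter_upwards [L.loc hu h, D.open' hu] with y h1 h2
  exact L.form_val h2 h1

theorem form_d {E : Type} [NormedAddCommGroup E] [NormedSpace ℝ E] [FiniteDimensional ℝ E]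
    {u : E → X} {x : E} {α : E → Lam E} (hu : D.At u x) (h : L.R u x α) :
    L.form.d.val u x = extd α x := by
  rw [Form.d_val _ hu]
  exact extd_congr (L.form_eventuallyEq hu h)

end LocRel

end Vale.Agent.P231.WE
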