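import Vale.Agent.P231.H775.Lift
import Vale.Agent.P231.H703.Link

/-! P231, block E1, preparations: normalised slices of unit spheres; derivatives of curves in the
chart at the base point. -/

set_option maxSynthPendingDepth 3
set_option linter.unusedSectionVars false

open Bundle Manifold Set Filter Module
open scoped ContDiff Manifold Topology

namespace Vale.Agent.P231.WE

noncomputable section

section Slice

variable {W : Type*} [NormedAddCommGroup W] [InnerProductSpace ℝ W]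

/-- the normalised affine slice through `u₀` -/
def slc (u₀ : W) (Q : Submodule ℝ W) (η : Q) : W := (Real.sqrt (1 + ‖η‖ ^ 2))⁻¹ • (u₀ + η)

theorem slc_zero (u₀ : W) (Q : Submodule ℝ W) : slc u₀ Q 0 = u₀ := by
  simp [slc]

theorem slc_contDiff (u₀ : W) (Q : Submodule ℝ W) : ContDiff ℝ ∞ (slc u₀ Q) := by
  have h1 : ContDiff ℝ ∞ fun η : Q => 1 + ‖η‖ ^ 2 := contDiff_const.add (contDiff_norm_sq ℝ)
  have h2 : ContDiff ℝ ∞ fun η : Q => (Real.sqrt (1 + ‖η‖ ^ 2))⁻¹ := by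
    refine ContDiff.inv ?_ ?_
    · exact h1.sqrt fun η => by positivity
    · intro η
      have : 0 < Real.sqrt (1 + ‖η‖ ^ 2) := Real.sqrt_pos.2 (by positivity)
      exact this.ne'
  exact h2.smul (contDiff_const.add Q.subtypeL.contDiff)

theorem slc_norm {u₀ : W} (hu : ‖u₀‖ = 1) {Q : Submodule ℝ W} (hQ : ∀ η ∈ Q, inner ℝ u₀ η = (0 : ℝ))
    (η : Q) : ‖slc u₀ Q η‖ = 1 := by
  have h1 : ‖u₀ + (η : W)‖ ^ 2 = 1 + ‖η‖ ^ 2 := by
    rw [norm_add_sq_real, hu, hQ η η.2]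
    simp
  have h2 : ‖u₀ + (η : W)‖ = Real.sqrt (1 + ‖η‖ ^ 2) := by
    rw [← h1, Real.sqrt_sq (norm_nonneg _)]
  have h3 : 0 < Real.sqrt (1 + ‖η‖ ^ 2) := Real.sqrt_pos.2 (by positivity)
  rw [slc, norm_smul, h2, norm_inv, Real.norm_of_nonneg h3.le, inv_mul_cancel₀ h3.ne']

theorem slc_hasFDerivAt (u₀ : W) (Q : Submodule ℝ W) :
    HasFDerivAt (slc u₀ Q) Q.subtypeL 0 := by
  have h1 : HasFDerivAt (fun η : Q => 1 + ‖η‖ ^ 2) (0 : Q →L[ℝ] ℝ) 0 := by
    have h2 := ((hasStrictFDerivAt_norm_sq (0 : Q)).hasFDerivAt).const_add (1 : ℝ)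
    have h3 : (2 • (innerSL ℝ (0 : Q)) : Q →L[ℝ] ℝ) = 0 := by simp
    rw [h3] at h2
    exact h2
  have h4 : DifferentiableAt ℝ (fun r : ℝ => (Real.sqrt r)⁻¹) (1 + ‖(0 : Q)‖ ^ 2) := by
    have h41 : (1 : ℝ) + ‖(0 : Q)‖ ^ 2 = 1 := by simp
    rw [h41]
    refine DifferentiableAt.inv ?_ ?_
    · exact (Real.hasDerivAt_sqrt one_ne_zero).differentiableAt
    · simp
  have h5 : HasFDerivAt (fun η : Q => (Real.sqrt (1 + ‖η‖ ^ 2))⁻¹) (0 : Q →L[ℝ] ℝ) 0 := by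
    have h7 := HasFDerivAt.comp (0 : Q) (g := fun r : ℝ => (Real.sqrt r)⁻¹)
      (f := fun η : Q => 1 + ‖η‖ ^ 2) h4.hasFDerivAt h1
    rw [ContinuousLinearMap.comp_zero] at h7
    exact h7
  have h8 : HasFDerivAt (fun η : Q => u₀ + (η : W)) Q.subtypeL 0 :=
    Q.subtypeL.hasFDerivAt.const_add u₀
  have h9 := h5.smul h8
  have h10 : ((Real.sqrt (1 + ‖(0 : Q)‖ ^ 2))⁻¹ • Q.subtypeL +
      (0 : Q →L[ℝ] ℝ).smulRight (u₀ + ((0 : Q) : W))) = Q.subtypeL := by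
    ext η
    simp
  rw [h10] at h9
  exact h9

end Slice

section Chart

open Vale.Agent.P234 Vale.Agent.P231

variable {E : Type*} [NormedAddCommGroup E] [NormedSpace ℝ E] [FiniteDimensional ℝ E]
  {M : Type*} [MetricSpace M] [ChartedSpace E M] [IsManifold 𝓘(ℝ, E) ∞ M]
  [RiemannianBundle (fun x : M => TangentSpace 𝓘(ℝ, E) x)]
  [IsContMDiffRiemannianBundle 𝓘(ℝ, E) ∞ E (fun x : M => TangentSpace 𝓘(ℝ, E) x)]
  {e : ∀ x : M, TangentSpace 𝓘(ℝ, E) x → M}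

/-- velocity of a curve in terms of its chart representation -/
theorem chart_mfderiv {y : M} {c : ℝ → M} (hc0 : c 0 = y) (hc : ContinuousAt c 0) {X : E}
    (hX : HasDerivAt (fun t => extChartAt 𝓘(ℝ, E) y (c t)) X 0) :
    (mfderiv 𝓘(ℝ, ℝ) 𝓘(ℝ, E) c 0 (1 : ℝ) : E) = (vec y y X : E) := by
  set q : ℝ → E := fun t => extChartAt 𝓘(ℝ, E) y (c t) with hq
  have hq0 : q 0 = extChartAt 𝓘(ℝ, E) y y := by simp only [hq, hc0]
  have hqt : q 0 ∈ (extChartAt 𝓘(ℝ, E) y).target := by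
    rw [hq0]
    exact mem_extChartAt_target y
  have h2 := mfderiv_curve_chart y hqt hX.differentiableAt
  rw [hX.deriv] at h2
  have h3 : (fun t : ℝ => (extChartAt 𝓘(ℝ, E) y).symm (q t)) =ᶠ[𝓝 0] c := by
    have h4 : c 0 ∈ (extChartAt 𝓘(ℝ, E) y).source := by
      rw [hc0]
      exact mem_extChartAt_source y
    filter_upwards [hc.eventually ((isOpen_extChartAt_source (I := 𝓘(ℝ, E)) y).mem_nhds h4)]
      with t ht
    simp only [hq]
    exact (extChartAt 𝓘(ℝ, E) y).left_inv ht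
  have h5 : (mfderiv 𝓘(ℝ, ℝ) 𝓘(ℝ, E) c 0 (1 : ℝ) : E) = (dch y (q 0) X : E) := by
    rw [← rel_congr_raw h3]
    exact h2
  have h6 : ∀ z : M, z = y → (vec y z X : E) = vec y y X := by
    rintro z rfl
    rfl
  have h7 : (extChartAt 𝓘(ℝ, E) y).symm (q 0) = y := by
    rw [hq0]
    exact extChartAt_to_inv y
  exact h5.trans (h6 _ h7)

end Chart

end

end Vale.Agent.P231.WE
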